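import Vale.Agent.P097.D1G.Cau

/-! # P097 / D1G : core inequality, start of the bootstrap -/

set_option linter.all false

open Filter Set Metric

namespace Vale.Agent.P097.D1G

section core
variable {b R M : ℝ} {n : ℕ} {L : ℂ} {F : (ℤ → ℂ) → ℂ} (hF : Fun b R M n L F)

include hF in
/-- the core inequality -/
theorem core (hn : 1 ≤ n) {a a' : ℤ → ℂ} (ha : Sm b a) (ha' : Sm b a') (Fa : F a = 0) (Fa' : F a' = 0) {r : ℕ}
    (hr : r < n) (h1 : nm b a ≤ R / 16) (h2 : nm b a' ≤ R / 16) :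
    ‖L‖ * ‖a n - a' n‖ ≤ ‖F (tr r a) - F (tr r a')‖ + 64 * M / R ^ 2 *
      (nm b (tr r (a - a')) * nm b (a - tr r a) +
        nm b ((a - a') - tr r (a - a')) * (nm b a' + nm b ((a - a') - tr r (a - a')))) := by
  have hR := hF.hR
  set T := tr r a with hT
  set T' := tr r a' with hT'
  set w := (a - a') - tr r (a - a') with hw
  have hd : nm b (a - a') ≤ R / 8 := by
    have := nm_sub_le ha ha'
    linarith
  have hds : Sm b (a - a') := ha.sub ha'
  have hTs : Sm b T := ha.tr r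
  have hTs' : Sm b T' := ha'.tr r
  have hut : tr r (a - a') = T - T' := tr_sub r a a'
  have hus : Sm b (tr r (a - a')) := hds.tr r
  have hts : Sm b (a - T) := ha.of_le (tl_norm_le r a)
  have hws : Sm b w := hds.of_le (tl_norm_le r _)
  have nT' : nm b T' ≤ R / 8 := (nm_tr_le ha' r).trans (by linarith)
  have nu : nm b (tr r (a - a')) ≤ R / 8 := (nm_tr_le hds r).trans hd
  have nt : nm b (a - T) ≤ R / 8 := (nm_le_of_le ha (tl_norm_le r a)).trans (by linarith)
  have nw : nm b w ≤ R / 8 := (nm_le_of_le hds (tl_norm_le r _)).trans hd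
  have m1 := mixF hF hTs' hus hts nT' nu nt
  have m2 := P3 hF hn ha' hws (by linarith) nw
  have e1 : T' + tr r (a - a') + (a - T) = a := by rw [hut]; abel
  have e2 : T' + tr r (a - a') = T := by rw [hut]; abel
  have e3 : T' + (a - T) = a' + w := by
    rw [hw, hut]; abel
  rw [e1, e2, e3] at m1
  have e4 : w n = a n - a' n := by
    rw [hw]
    have : tr r (a - a') (n : ℤ) = 0 := by
      unfold tr
      rw [if_neg]
      rw [Nat.abs_cast]
      exact_mod_cast hr.not_ge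
    simp only [Pi.sub_apply] at this ⊢
    rw [this, sub_zero]
  rw [e4] at m2
  have e5 : L * (a n - a' n) = -(F T - F T') - (F a - F T - F (a' + w) + F T') - (F (a' + w) - F a' - L * (a n - a' n)) := by
    rw [Fa, Fa']; ring
  rw [← norm_mul, e5]
  calc _ ≤ ‖-(F T - F T') - (F a - F T - F (a' + w) + F T')‖ + ‖F (a' + w) - F a' - L * (a n - a' n)‖ := norm_sub_le _ _
    _ ≤ ‖-(F T - F T')‖ + ‖F a - F T - F (a' + w) + F T'‖ + ‖F (a' + w) - F a' - L * (a n - a' n)‖ := by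
        gcongr
        exact norm_sub_le _ _
    _ ≤ _ := by
        rw [norm_neg]
        nlinarith [m1, m2]

theorem rot_fin {b : ℝ} (hb : 0 ≤ b) {a : ℤ → ℂ} {lam : ℂ} {r : ℕ} {D : ℝ} (h : ∀ k : ℤ, |k| ≤ r → ‖lam ^ k * a k‖ ≤ D)
    (hD : 0 ≤ D) : Sm b (rot lam (tr r a)) ∧ nm b (rot lam (tr r a)) ≤ (2 * r + 1) * Real.exp (b * r) * D := by
  refine sm_fin hb r (fun k => ?_) (fun k hk => ?_)
  · unfold rot tr
    split
    · exact h k (by assumption)
    · simpa using hD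
  · unfold rot tr
    rw [if_neg (by omega)]
    simp

include hF in
/-- rotation of the truncations -/
theorem rotF (hb : 0 ≤ b) {a a' : ℤ → ℂ} (ha : Sm b a) (ha' : Sm b a') (h1 : nm b a < R) (h2 : nm b a' < R) {r : ℕ}
    {lam : ℝ} (hlam : 0 < lam) (hs' : Sm b (rot (lam : ℂ) (tr r a'))) (hsd : Sm b (rot (lam : ℂ) (tr r (a - a'))))
    (n1 : nm b (rot (lam : ℂ) (tr r a')) ≤ R / 4) (n2 : nm b (rot (lam : ℂ) (tr r (a - a'))) ≤ R / 4) :
    ‖F (tr r a) - F (tr r a')‖ ≤ (lam⁻¹) ^ n * (4 * M / R * nm b (rot (lam : ℂ) (tr r (a - a')))) := by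
  have hR := hF.hR
  have hl0 : (lam : ℂ) ≠ 0 := Complex.ofReal_ne_zero.2 hlam.ne'
  have e0 : rot (lam : ℂ) (tr r a) = rot (lam : ℂ) (tr r a') + rot (lam : ℂ) (tr r (a - a')) := by
    rw [tr_sub, rot_sub]; abel
  have hsa : Sm b (rot (lam : ℂ) (tr r a)) := by rw [e0]; exact hs'.add hsd
  have nsa : nm b (rot (lam : ℂ) (tr r a)) < R := by
    rw [e0]
    have := nm_add_le hs' hsd
    linarith
  have r1 := hF.rot lam hl0 (tr r a) (ha.tr r) hsa ((nm_tr_le ha r).trans_lt h1) nsa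
  have r2 := hF.rot lam hl0 (tr r a') (ha'.tr r) hs' ((nm_tr_le ha' r).trans_lt h2) (by linarith)
  have l1 := lipF hF hs' hsd n1 n2
  rw [← e0, r1, r2, ← mul_sub, norm_mul, norm_pow, Complex.norm_real, Real.norm_eq_abs, abs_of_pos hlam] at l1
  rw [inv_pow, ← div_eq_inv_mul, le_div_iff₀ (pow_pos hlam n), mul_comm]
  exact l1

end core

/-! ### pairs -/

section pair
variable {B : ℝ} {C₀ q₀ : ℕ} {δ μ : ℝ} {a a' : ℤ → ℂ} {F : ℕ → (ℤ → ℂ) → ℂ} {L : ℕ → ℂ}

theorem Pair.C1 (h : Pair B C₀ q₀ δ μ a a' F L) : 1 ≤ C₀ := by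
  by_contra hc
  have h0 : C₀ = 0 := by omega
  have := (h.hF 1 one_pos le_rfl q₀ le_rfl).hR
  rw [h0] at this
  simp at this

theorem Pair.n1 (h : Pair B C₀ q₀ δ μ a a' F L) {n : ℕ} (hn : q₀ ≤ n) : 1 ≤ n := by
  by_contra hc
  have h0 : n = 0 := by omega
  have h1 := (h.hF 1 one_pos le_rfl n hn).hR
  have h2 := h.C1
  rw [h0, Nat.cast_zero, zero_pow (by omega)] at h1
  simp at h1

theorem Pair.left (h : Pair B C₀ q₀ δ μ a a' F L) (hδ : 0 < δ) : Pair B C₀ q₀ δ 1 a 0 F L where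
  hF := h.hF
  hL := h.hL
  za := h.za
  za' := fun n hn => F_zero (h.hF 1 one_pos le_rfl n hn) (h.n1 hn)
  cj := h.cj
  cj' := fun k => by simp
  low := h.low
  low' := fun k hk => rfl
  st := h.st
  st' := fun S hS k => by
    have : 0 ≤ S := (norm_nonneg _).trans (hS 0)
    simp only [Pi.zero_apply, norm_zero]
    positivity
  std := fun S hS k => by
    simp only [Pi.zero_apply, sub_zero] at hS ⊢
    exact h.st S hS k
  gr := h.gr
  gr' := fun k hk => by simp only [Pi.zero_apply, norm_zero]; positivity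
  grd := fun k hk => by simpa using h.gr k hk

theorem Pair.right (h : Pair B C₀ q₀ δ μ a a' F L) (hδ : 0 < δ) : Pair B C₀ q₀ δ 1 a' 0 F L where
  hF := h.hF
  hL := h.hL
  za := h.za'
  za' := fun n hn => F_zero (h.hF 1 one_pos le_rfl n hn) (h.n1 hn)
  cj := h.cj'
  cj' := fun k => by simp
  low := h.low'
  low' := fun k hk => rfl
  st := h.st'
  st' := fun S hS k => by
    have : 0 ≤ S := (norm_nonneg _).trans (hS 0)
    simp only [Pi.zero_apply, norm_zero]
    positivity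
  std := fun S hS k => by
    simp only [Pi.zero_apply, sub_zero] at hS ⊢
    exact h.st' S hS k
  gr := h.gr'
  gr' := fun k hk => by simp only [Pi.zero_apply, norm_zero]; positivity
  grd := fun k hk => by simpa using h.gr' k hk

/-- it is enough to bound the coefficients of nonnegative index -/
theorem Pair.sym (h : Pair B C₀ q₀ δ μ a a' F L) (k : ℤ) : ‖a k - a' k‖ = ‖a (k.natAbs : ℤ) - a' (k.natAbs : ℤ)‖ := by
  rcases Int.natAbs_eq k with hk | hk
  · rw [← hk]
  · have h1 : k = -((k.natAbs : ℕ) : ℤ) := hk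
    conv_lhs => rw [h1, h.cj, h.cj', ← map_sub, Complex.norm_conj]

end pair

end Vale.Agent.P097.D1G
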