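import Vale.Agent.P097.D1G.Norm

/-! # P097 / D1G : Schwarz type estimates for holomorphic functionals -/

set_option linter.all false

open Filter Set Metric

namespace Vale.Agent.P097.D1G

/-- Schwarz lemma with non strict bounds -/
theorem schwarz {f : ℂ → ℂ} {ρ A : ℝ} (hρ : 0 < ρ) (hA : 0 ≤ A) (hf : DifferentiableOn ℂ f (ball 0 ρ))
    (hb : ∀ t ∈ ball (0:ℂ) ρ, ‖f t - f 0‖ ≤ A) {t : ℂ} (ht : ‖t‖ < ρ) : ‖f t - f 0‖ ≤ A / ρ * ‖t‖ := by
  have := Complex.dist_le_div_mul_dist_of_mapsTo_ball (f := f) (c := 0) (z := t) (R₁ := ρ) (R₂ := A) hf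
    (fun s hs => by
      rw [mem_closedBall, dist_eq_norm]
      exact hb s hs) (by rwa [mem_ball_zero_iff])
  rwa [dist_eq_norm, dist_zero_right] at this

/-- second order Schwarz lemma -/
theorem schwarz2 {f : ℂ → ℂ} {ρ A : ℝ} {f' : ℂ} (hρ : 1 < ρ) (hA : 0 ≤ A) (hf : DifferentiableOn ℂ f (ball 0 ρ))
    (hb : ∀ t ∈ ball (0:ℂ) ρ, ‖f t - f 0‖ ≤ A) (hd : HasDerivAt f f' 0) :
    ‖f 1 - f 0 - f'‖ ≤ 2 * A / ρ ^ 2 := by
  have hρ0 : 0 < ρ := by linarith
  set g := dslope f 0 with hg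
  have hgd : DifferentiableOn ℂ g (ball 0 ρ) :=
    (Complex.differentiableOn_dslope (ball_mem_nhds 0 hρ0)).2 hf
  have hgb : ∀ t ∈ ball (0:ℂ) ρ, ‖g t‖ ≤ A / ρ := by
    have h1 : ∀ t ∈ ball (0:ℂ) ρ, t ≠ 0 → ‖g t‖ ≤ A / ρ := by
      intro t ht h0
      rw [hg, dslope_of_ne _ h0, slope_def_field, norm_div, sub_zero]
      rw [mem_ball_zero_iff] at ht
      have h2 := schwarz hρ0 hA hf hb ht
      rw [div_le_iff₀ (norm_pos_iff.2 h0)]
      exact h2
    intro t ht
    by_cases h0 : t = 0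
    · subst h0
      have hc : ContinuousAt g 0 := (hgd.differentiableAt (ball_mem_nhds 0 hρ0)).continuousAt
      have h2 : Tendsto (fun t => ‖g t‖) (nhdsWithin (0:ℂ) {0}ᶜ) (nhds ‖g 0‖) :=
        (hc.norm.tendsto).mono_left nhdsWithin_le_nhds
      refine le_of_tendsto h2 ?_
      have h3 : ball (0:ℂ) ρ ∈ nhdsWithin (0:ℂ) {0}ᶜ := mem_nhdsWithin_of_mem_nhds (ball_mem_nhds 0 hρ0)
      filter_upwards [h3, self_mem_nhdsWithin] with t ht ht0
      exact h1 t ht ht0
    · exact h1 t ht h0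
  have h3 : ‖g 1 - g 0‖ ≤ (2 * (A / ρ)) / ρ * ‖(1:ℂ)‖ := by
    refine schwarz hρ0 (by positivity) hgd (fun t ht => ?_) (by rw [norm_one]; exact hρ)
    have := hgb t ht
    have h0 := hgb 0 (mem_ball_self hρ0)
    calc ‖g t - g 0‖ ≤ ‖g t‖ + ‖g 0‖ := norm_sub_le _ _
      _ ≤ 2 * (A / ρ) := by linarith
  have h4 : g 0 = f' := by
    rw [hg, dslope_same]
    exact hd.deriv
  have h5 : g 1 = f 1 - f 0 := by
    rw [hg, dslope_of_ne _ one_ne_zero, slope_def_field, sub_zero, div_one]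
  rw [h4, h5, norm_one, mul_one] at h3
  refine h3.trans (le_of_eq ?_)
  field_simp

section
variable {b R M : ℝ} {m : ℕ} {L : ℂ} {F : (ℤ → ℂ) → ℂ} (hF : Fun b R M m L F)

include hF in
theorem F_zero (hm : 1 ≤ m) : F 0 = 0 := by
  have h0 : rot (2:ℂ) (0 : ℤ → ℂ) = 0 := by
    funext k; simp [D1G.rot]
  have h := hF.rot 2 two_ne_zero 0 (sm_zero b) (by rw [h0]; exact sm_zero b) (by rw [nm_zero]; exact hF.hR)
    (by rw [h0, nm_zero]; exact hF.hR)
  rw [h0] at h
  have h2 : (2:ℂ) ^ m ≠ 1 := by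
    intro hc
    have : ‖(2:ℂ) ^ m‖ = 1 := by rw [hc, norm_one]
    rw [norm_pow, Complex.norm_ofNat] at this
    have h3 : (1:ℝ) < 2 ^ m := one_lt_pow₀ (by norm_num) (by omega)
    linarith
  have h3 : (1 - (2:ℂ) ^ m) * F 0 = 0 := by linear_combination h
  exact (mul_eq_zero.1 h3).resolve_left (sub_ne_zero.2 (Ne.symm h2))

include hF in
theorem line_diff {x u : ℤ → ℂ} (hx : Sm b x) (hu : Sm b u) {ρ : ℝ} (h : nm b x + ρ * nm b u ≤ R) (hρ : 0 < ρ)
    (hx' : nm b x < R) :
    DifferentiableOn ℂ (fun t : ℂ => F (x + t • u)) (ball 0 ρ) ∧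
      ∀ t ∈ ball (0:ℂ) ρ, nm b (x + t • u) < R := by
  have h1 : ∀ t ∈ ball (0:ℂ) ρ, nm b (x + t • u) < R := by
    intro t ht
    rw [mem_ball_zero_iff] at ht
    have h2 := nm_add_le hx (hu.smul t)
    rw [nm_smul] at h2
    rcases (nm_nonneg b u).eq_or_lt with h0 | h0
    · rw [← h0, mul_zero] at h2
      linarith
    · have := mul_lt_mul_of_pos_right ht h0
      linarith
  exact ⟨(hF.hol x u hx hu).mono fun t ht => h1 t ht, h1⟩

include hF in
/-- Lipschitz estimate -/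
theorem lipF {x u : ℤ → ℂ} (hx : Sm b x) (hu : Sm b u) (hx' : nm b x ≤ R / 4) (hu' : nm b u ≤ R / 4) :
    ‖F (x + u) - F x‖ ≤ 4 * M / R * nm b u := by
  have hR := hF.hR
  have hM := hF.hM
  rcases (nm_nonneg b u).eq_or_lt with h0 | h0
  · have h1 := eq_zero_of_nm hu h0.symm
    subst h1
    simp [nm_zero]
  · set ρ := R / (2 * nm b u) with hρ
    have hρ0 : 0 < ρ := by positivity
    have h1 : ρ * nm b u = R / 2 := by rw [hρ]; field_simp
    obtain ⟨h2, h3⟩ := line_diff hF hx hu (ρ := ρ) (by rw [h1]; linarith) hρ0 (by linarith)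
    have hρ1 : 1 < ρ := by
      rw [hρ, one_lt_div (by positivity)]
      linarith
    have h4 := schwarz (f := fun t : ℂ => F (x + t • u)) (A := 2 * M) (t := 1) hρ0 (by linarith) h2 (fun t ht => by
      have e1 := hF.bd _ (hx.add (hu.smul t)) (h3 t ht)
      have e2 := hF.bd x hx (by linarith)
      simp only [zero_smul, add_zero]
      calc ‖F (x + t • u) - F x‖ ≤ ‖F (x + t • u)‖ + ‖F x‖ := norm_sub_le _ _
        _ ≤ 2 * M := by linarith) (by rw [norm_one]; exact hρ1)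
    simp only [one_smul, zero_smul, add_zero, norm_one, mul_one] at h4
    refine h4.trans (le_of_eq ?_)
    rw [hρ]
    field_simp
    ring

include hF in
/-- mixed second difference -/
theorem mixF {x u v : ℤ → ℂ} (hx : Sm b x) (hu : Sm b u) (hv : Sm b v) (hx' : nm b x ≤ R / 8)
    (hu' : nm b u ≤ R / 8) (hv' : nm b v ≤ R / 8) :
    ‖F (x + u + v) - F (x + u) - F (x + v) + F x‖ ≤ 64 * M / R ^ 2 * nm b u * nm b v := by
  have hR := hF.hR
  have hM := hF.hM
  rcases (nm_nonneg b u).eq_or_lt with h0 | h0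
  · have h1 := eq_zero_of_nm hu h0.symm
    subst h1
    simp [nm_zero]
  rcases (nm_nonneg b v).eq_or_lt with h0v | h0v
  · have h1 := eq_zero_of_nm hv h0v.symm
    subst h1
    simp [nm_zero]
  set ρ := R / (4 * nm b u) with hρ
  set σ := R / (4 * nm b v) with hσ
  have hρ0 : 0 < ρ := by positivity
  have hσ0 : 0 < σ := by positivity
  have hρe : ρ * nm b u = R / 4 := by rw [hρ]; field_simp
  have hσe : σ * nm b v = R / 4 := by rw [hσ]; field_simp
  have hρ1 : 1 < ρ := by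
    rw [hρ, one_lt_div (by positivity)]
    linarith
  have hσ1 : 1 < σ := by
    rw [hσ, one_lt_div (by positivity)]
    linarith
  -- bound in the direction `v` for every base point `x + s • u`
  have key : ∀ s ∈ ball (0:ℂ) ρ, ‖F (x + s • u + v) - F (x + s • u)‖ ≤ 2 * M / σ := by
    intro s hs
    have hs' := hs
    rw [mem_ball_zero_iff] at hs'
    have hsu : nm b (s • u) ≤ R / 4 := by
      rw [nm_smul, ← hρe]
      exact mul_le_mul_of_nonneg_right hs'.le h0.le
    have hy : nm b (x + s • u) ≤ 3 * R / 8 := by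
      have := nm_add_le hx (hu.smul s)
      linarith
    have hys := hx.add (hu.smul s)
    obtain ⟨h2, h3⟩ := line_diff hF hys hv (ρ := σ) (by rw [hσe]; linarith) hσ0 (by linarith)
    have h4 := schwarz (f := fun t : ℂ => F (x + s • u + t • v)) (A := 2 * M) (t := 1) hσ0 (by linarith) h2 (fun t ht => by
      have e1 := hF.bd _ (hys.add (hv.smul t)) (h3 t ht)
      have e2 := hF.bd _ hys (by linarith)
      simp only [zero_smul, add_zero]
      calc ‖F (x + s • u + t • v) - F (x + s • u)‖ ≤ ‖F (x + s • u + t • v)‖ + ‖F (x + s • u)‖ := norm_sub_le _ _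
        _ ≤ 2 * M := by linarith) (by rw [norm_one]; exact hσ1)
    simpa using h4
  have hxv := hx.add hv
  have hxv' : nm b (x + v) ≤ R / 4 := by
    have := nm_add_le hx hv
    linarith
  obtain ⟨d1, -⟩ := line_diff hF hxv hu (ρ := ρ) (by rw [hρe]; linarith) hρ0 (by linarith)
  obtain ⟨d2, -⟩ := line_diff hF hx hu (ρ := ρ) (by rw [hρe]; linarith) hρ0 (by linarith)
  have d3 : DifferentiableOn ℂ (fun s : ℂ => F (x + s • u + v) - F (x + s • u)) (ball 0 ρ) := by
    refine DifferentiableOn.sub (d1.congr fun s hs => ?_) d2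
    have : x + s • u + v = x + v + s • u := by abel
    rw [this]
  have h5 := schwarz (f := fun s : ℂ => F (x + s • u + v) - F (x + s • u)) (A := 2 * (2 * M / σ)) (t := 1) hρ0
    (by positivity) d3 (fun s hs => by
      have e1 := key s hs
      have e2 := key 0 (mem_ball_self hρ0)
      calc _ ≤ ‖F (x + s • u + v) - F (x + s • u)‖ + ‖F (x + (0:ℂ) • u + v) - F (x + (0:ℂ) • u)‖ := norm_sub_le _ _
        _ ≤ 2 * (2 * M / σ) := by linarith) (by rw [norm_one]; exact hρ1)
  simp only [one_smul, zero_smul, add_zero, norm_one, mul_one] at h5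
  have h6 : F (x + u + v) - F (x + u) - F (x + v) + F x = F (x + u + v) - F (x + u) - (F (x + v) - F x) := by ring
  rw [h6]
  refine h5.trans (le_of_eq ?_)
  rw [hρ, hσ]
  field_simp
  ring

include hF in
/-- second order remainder in one direction -/
theorem quadF {x u : ℤ → ℂ} (hx : Sm b x) (hu : Sm b u) (hx' : nm b x ≤ R / 4) (hu' : nm b u ≤ R / 4) {f' : ℂ}
    (hd : HasDerivAt (fun t : ℂ => F (x + t • u)) f' 0) :
    ‖F (x + u) - F x - f'‖ ≤ 16 * M / R ^ 2 * nm b u ^ 2 := by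
  have hR := hF.hR
  have hM := hF.hM
  rcases (nm_nonneg b u).eq_or_lt with h0 | h0
  · have h1 := eq_zero_of_nm hu h0.symm
    subst h1
    have : f' = 0 := by
      refine hd.unique ?_
      simpa using hasDerivAt_const (0:ℂ) (F x)
    simp [nm_zero, this]
  · set ρ := R / (2 * nm b u) with hρ
    have hρ0 : 0 < ρ := by positivity
    have h1 : ρ * nm b u = R / 2 := by rw [hρ]; field_simp
    obtain ⟨h2, h3⟩ := line_diff hF hx hu (ρ := ρ) (by rw [h1]; linarith) hρ0 (by linarith)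
    have hρ1 : 1 < ρ := by
      rw [hρ, one_lt_div (by positivity)]
      linarith
    have h4 := schwarz2 (f := fun t : ℂ => F (x + t • u)) (A := 2 * M) hρ1 (by linarith) h2 (fun t ht => by
      have e1 := hF.bd _ (hx.add (hu.smul t)) (h3 t ht)
      have e2 := hF.bd x hx (by linarith)
      simp only [zero_smul, add_zero]
      calc ‖F (x + t • u) - F x‖ ≤ ‖F (x + t • u)‖ + ‖F x‖ := norm_sub_le _ _
        _ ≤ 2 * M := by linarith) hd
    simp only [one_smul, zero_smul, add_zero] at h4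
    refine h4.trans (le_of_eq ?_)
    rw [hρ]
    field_simp
    ring

include hF in
/-- linear part at `0` -/
theorem linF (hm : 1 ≤ m) {u : ℤ → ℂ} (hu : Sm b u) (hu' : nm b u ≤ R / 4) :
    ‖F u - L * u m‖ ≤ 16 * M / R ^ 2 * nm b u ^ 2 := by
  have hd : HasDerivAt (fun t : ℂ => F (0 + t • u)) (L * u m) 0 := by
    simpa only [zero_add] using hF.lin u hu
  have h := quadF hF (sm_zero b) hu (by rw [nm_zero]; linarith [hF.hR]) hu' hd
  rwa [zero_add, F_zero hF hm, sub_zero] at h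

include hF in
/-- (P3) -/
theorem P3 (hm : 1 ≤ m) {x u : ℤ → ℂ} (hx : Sm b x) (hu : Sm b u) (hx' : nm b x ≤ R / 8) (hu' : nm b u ≤ R / 8) :
    ‖F (x + u) - F x - L * u m‖ ≤ 64 * M / R ^ 2 * nm b u * (nm b x + nm b u) := by
  have hR := hF.hR
  have hM := hF.hM
  have h1 := mixF hF (sm_zero b) hx hu (by rw [nm_zero]; linarith) hx' hu'
  have h2 := linF hF hm hu (by linarith)
  rw [zero_add, zero_add, F_zero hF hm, add_zero] at h1
  have h3 : F (x + u) - F x - L * u m = (F (x + u) - F x - F u) + (F u - L * u m) := by ring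
  rw [h3]
  refine (norm_add_le _ _).trans ?_
  have h4 := nm_nonneg b u
  have h5 := nm_nonneg b x
  have h6 : 16 * M / R ^ 2 * nm b u ^ 2 ≤ 64 * M / R ^ 2 * nm b u ^ 2 := by
    refine mul_le_mul_of_nonneg_right ?_ (by positivity)
    refine div_le_div_of_nonneg_right ?_ (by positivity)
    linarith
  calc _ ≤ 64 * M / R ^ 2 * nm b x * nm b u + 64 * M / R ^ 2 * nm b u ^ 2 := by linarith
    _ = 64 * M / R ^ 2 * nm b u * (nm b x + nm b u) := by ring

end

end Vale.Agent.P097.D1G
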