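import Mathlib

/-! # P097 / D1G : graded bootstrap, sequence level (helper60)

A table near the disc is `1 + ∑ a k e^{ikψ}`; `F` = a Fourier coefficient (of index `m`, the weight)
of the critical value of the `n`-gon action, as a function of the sequence `a` (arbitrary complex,
`a (-k)` independent of `a k`). -/

set_option linter.all false

namespace Vale.Agent.P097.D1G

/-- weighted `ℓ¹` norm (strip of half width `b`) -/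
noncomputable def nm (b : ℝ) (a : ℤ → ℂ) : ℝ := ∑' k : ℤ, ‖a k‖ * Real.exp (b * |(k : ℝ)|)

def Sm (b : ℝ) (a : ℤ → ℂ) : Prop := Summable fun k : ℤ => ‖a k‖ * Real.exp (b * |(k : ℝ)|)

/-- complex rotation -/
noncomputable def rot (lam : ℂ) (a : ℤ → ℂ) : ℤ → ℂ := fun k => lam ^ k * a k

/-- holomorphic functional of weight `m` on the ball of radius `R`, bounded by `M`, linear part
`L * a m` -/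
structure Fun (b R M : ℝ) (m : ℕ) (L : ℂ) (F : (ℤ → ℂ) → ℂ) : Prop where
  hR : 0 < R
  hM : 1 ≤ M
  bd : ∀ a, Sm b a → nm b a < R → ‖F a‖ ≤ M
  hol : ∀ a c, Sm b a → Sm b c →
    DifferentiableOn ℂ (fun t : ℂ => F (a + t • c)) {t | nm b (a + t • c) < R}
  rot : ∀ lam : ℂ, lam ≠ 0 → ∀ a, Sm b a → Sm b (rot lam a) → nm b a < R →
    nm b (rot lam a) < R → F (rot lam a) = lam ^ m * F a
  lin : ∀ c, Sm b c → HasDerivAt (fun t : ℂ => F (t • c)) (L * c m) 0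

/-- truncation -/
def tr (r : ℕ) (a : ℤ → ℂ) : ℤ → ℂ := fun k => if |k| ≤ (r : ℤ) then a k else 0

/-- one-sided sequence -/
def os (c : ℕ → ℂ) : ℤ → ℂ := fun k => if 0 ≤ k then c k.toNat else 0

/-- Data of a pair of tables (`a' = 0`: the disc; `a'` = the ellipse with the same modes
`|k| ≤ 2`); `F n` = the functional of the `n`-gon of rotation `1/n`, weight `n`. -/
structure Pair (B : ℝ) (C₀ q₀ : ℕ) (δ μ : ℝ) (a a' : ℤ → ℂ) (F : ℕ → (ℤ → ℂ) → ℂ) (L : ℕ → ℂ) :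
    Prop where
  hF : ∀ b : ℝ, 0 < b → b ≤ 1 → ∀ n : ℕ, q₀ ≤ n →
    Fun b (b ^ C₀ / ((C₀ : ℝ) * n ^ C₀)) ((C₀ : ℝ) * n ^ C₀ / b ^ C₀) n (L n) (F n)
  hL : ∀ n : ℕ, q₀ ≤ n → 1 ≤ (C₀ : ℝ) * n ^ C₀ * ‖L n‖
  za : ∀ n : ℕ, q₀ ≤ n → F n a = 0
  za' : ∀ n : ℕ, q₀ ≤ n → F n a' = 0
  cj : ∀ k, a (-k) = (starRingEnd ℂ) (a k)
  cj' : ∀ k, a' (-k) = (starRingEnd ℂ) (a' k)
  low : ∀ k : ℤ, |k| ≤ 1 → a k = 0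
  low' : ∀ k : ℤ, |k| ≤ 1 → a' k = 0
  /-- the linear strip estimate [F] for the pairs (table, disc), (table', disc), (table, table') -/
  st : ∀ S : ℝ, (∀ k, ‖a k‖ ≤ S) → ∀ k : ℤ, ‖a k‖ ≤ C₀ * S * Real.exp (-(B * |(k : ℝ)|))
  st' : ∀ S : ℝ, (∀ k, ‖a' k‖ ≤ S) → ∀ k : ℤ, ‖a' k‖ ≤ C₀ * S * Real.exp (-(B * |(k : ℝ)|))
  std : ∀ S : ℝ, (∀ k, ‖a k - a' k‖ ≤ S) → ∀ k : ℤ,
    ‖a k - a' k‖ ≤ C₀ * S * Real.exp (-(B * |(k : ℝ)|))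
  gr : ∀ k : ℕ, k < q₀ → ‖a k‖ ≤ δ ^ k
  gr' : ∀ k : ℕ, k < q₀ → ‖a' k‖ ≤ δ ^ k
  grd : ∀ k : ℕ, k < q₀ → ‖a k - a' k‖ ≤ μ * δ ^ k

/-- [GB] graded bootstrap -/
def GB : Prop := ∀ (B : ℝ) (C₀ q₀ : ℕ), 0 < B → ∃ ι : ℝ, 0 < ι ∧ ∀ r : ℕ,
  ∃ C β δ₀ : ℝ, 0 < C ∧ 0 < β ∧ 0 < δ₀ ∧ ∀ (δ μ : ℝ) (a a' : ℤ → ℂ) (F : ℕ → (ℤ → ℂ) → ℂ)
    (L : ℕ → ℂ), 0 < δ → δ < δ₀ → 0 ≤ μ → Pair B C₀ q₀ δ μ a a' F L → (∀ k, ‖a k‖ ≤ ι) →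
    (∀ k, ‖a' k‖ ≤ ι) → ∀ k : ℤ,
      ‖a k‖ ≤ C * δ ^ min k.natAbs r * Real.exp (-(β * |(k : ℝ)|)) ∧
      ‖a' k‖ ≤ C * δ ^ min k.natAbs r * Real.exp (-(β * |(k : ℝ)|)) ∧
      ‖a k - a' k‖ ≤ C * μ * δ ^ min k.natAbs r * Real.exp (-(β * |(k : ℝ)|))

/-- [LIM1] the limit of the graded coefficients is a one-sided solution -/
def LIM1 : Prop := ∀ (b β R M : ℝ) (m : ℕ) (L : ℂ) (F : (ℤ → ℂ) → ℂ), 0 < b → b < β → 1 ≤ m →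
  Fun b R M m L F → ∀ (a : ℕ → ℤ → ℂ) (δ : ℕ → ℝ) (C : ℝ) (r : ℕ) (c : ℕ → ℂ), m ≤ r →
  (∀ j, 0 < δ j) → Filter.Tendsto δ Filter.atTop (nhds 0) →
  (∀ j k, ‖a j k‖ ≤ C * δ j ^ min k.natAbs r * Real.exp (-(β * |(k : ℝ)|))) →
  (∀ j, ∀ k : ℤ, |k| ≤ 1 → a j k = 0) → (∀ j, F (a j) = 0) →
  (∀ k : ℕ, Filter.Tendsto (fun j => a j k / (δ j : ℂ) ^ k) Filter.atTop (nhds (c k))) →
  ∃ s₀ : ℝ, 0 < s₀ ∧ ∀ s : ℂ, ‖s‖ < s₀ → F (rot s (tr r (os c))) = 0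

/-- [LIM2] the limit of the normalised differences is a solution of the linearised one-sided
equation -/
def LIM2 : Prop := ∀ (b β R M : ℝ) (m : ℕ) (L : ℂ) (F : (ℤ → ℂ) → ℂ), 0 < b → b < β → 1 ≤ m →
  Fun b R M m L F → ∀ (a a' : ℕ → ℤ → ℂ) (δ μ : ℕ → ℝ) (C : ℝ) (r : ℕ) (c g : ℕ → ℂ), m ≤ r →
  (∀ j, 0 < δ j) → (∀ j, 0 < μ j) → Filter.Tendsto δ Filter.atTop (nhds 0) →
  (∀ j k, ‖a j k‖ ≤ C * δ j ^ min k.natAbs r * Real.exp (-(β * |(k : ℝ)|))) →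
  (∀ j k, ‖a' j k‖ ≤ C * δ j ^ min k.natAbs r * Real.exp (-(β * |(k : ℝ)|))) →
  (∀ j k, ‖a j k - a' j k‖ ≤ C * μ j * δ j ^ min k.natAbs r * Real.exp (-(β * |(k : ℝ)|))) →
  (∀ j, ∀ k : ℤ, |k| ≤ 1 → a j k = 0) → (∀ j, ∀ k : ℤ, |k| ≤ 1 → a' j k = 0) →
  (∀ j, F (a j) = 0) → (∀ j, F (a' j) = 0) → Filter.Tendsto μ Filter.atTop (nhds 0) →
  (∀ k : ℕ, Filter.Tendsto (fun j => a' j k / (δ j : ℂ) ^ k) Filter.atTop (nhds (c k))) →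
  (∀ k : ℕ, Filter.Tendsto (fun j => (a j k - a' j k) / ((μ j : ℂ) * (δ j : ℂ) ^ k)) Filter.atTop
    (nhds (g k))) →
  ∃ s₀ : ℝ, 0 < s₀ ∧ ∀ s : ℂ, ‖s‖ < s₀ → s ≠ 0 →
    HasDerivAt (fun t : ℂ => F (rot s (tr r (os c)) + t • rot s (tr r (os g)))) 0 0

end Vale.Agent.P097.D1G
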