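import Vale.Agent.P097.D1G.Level

/-! # P097 / D1G : [GB] graded bootstrap -/

set_option linter.all false

open Filter Set Metric

namespace Vale.Agent.P097.D1G

/-- level `r` for all pairs -/
def LD (B : ℝ) (C₀ q₀ : ℕ) (ι : ℝ) (r : ℕ) : Prop :=
  ∃ C β δ₀ : ℝ, 0 < C ∧ 0 < β ∧ β ≤ 1 ∧ 0 < δ₀ ∧ δ₀ ≤ 1 ∧ ∀ (δ μ : ℝ) (a a' : ℤ → ℂ) (F : ℕ → (ℤ → ℂ) → ℂ)
    (L : ℕ → ℂ), 0 < δ → δ < δ₀ → 0 ≤ μ → Pair B C₀ q₀ δ μ a a' F L → (∀ k, ‖a k‖ ≤ ι) →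
    (∀ k, ‖a' k‖ ≤ ι) → Lv r C β δ μ (a - a')

theorem LD_two {B : ℝ} {C₀ q₀ : ℕ} (hB : 0 < B) {ι : ℝ}
    (h : ∀ (δ μ : ℝ) (a a' : ℤ → ℂ) (F : ℕ → (ℤ → ℂ) → ℂ) (L : ℕ → ℂ), 0 < δ → δ ≤ 1 → 0 ≤ μ →
      Pair B C₀ q₀ δ μ a a' F L → (∀ k, ‖a k‖ ≤ ι) → (∀ k, ‖a' k‖ ≤ ι) →
      ∀ k : ℤ, ‖a k - a' k‖ ≤ C₀ * (μ * δ ^ 2) * Real.exp (-(B * |(k : ℝ)|))) : LD B C₀ q₀ ι 2 := by
  refine ⟨C₀ + 1, min B 1, 1, by positivity, lt_min hB one_pos, min_le_right _ _, one_pos, le_rfl, ?_⟩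
  intro δ μ a a' F L hδ hδ1 hμ hp ha ha' k
  refine (h δ μ a a' F L hδ hδ1.le hμ hp ha ha' k).trans ?_
  have h1 : δ ^ 2 ≤ δ ^ min k.natAbs 2 := pow_le_pow_of_le_one hδ.le hδ1.le (min_le_right _ _)
  have h2 : Real.exp (-(B * |(k : ℝ)|)) ≤ Real.exp (-(min B 1 * |(k : ℝ)|)) := by
    refine Real.exp_le_exp.2 (neg_le_neg ?_)
    exact mul_le_mul_of_nonneg_right (min_le_left _ _) (abs_nonneg _)
  calc (C₀ : ℝ) * (μ * δ ^ 2) * Real.exp (-(B * |(k : ℝ)|)) ≤ (C₀ + 1) * (μ * δ ^ min k.natAbs 2) *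
        Real.exp (-(min B 1 * |(k : ℝ)|)) := by
        gcongr
        linarith
    _ = _ := by ring

theorem small_idx {β' δ μ x : ℝ} {n q₀ r : ℕ} (hδ : 0 < δ) (hδ1 : δ ≤ 1) (hμ : 0 ≤ μ) (hβ0 : 0 ≤ β') (hβ : β' ≤ 1) (hn : n < q₀)
    (h5 : x ≤ μ * δ ^ n) : x ≤ Real.exp q₀ * (μ * δ ^ min n (r + 1) * Real.exp (-(β' * n))) := by
  have h6 : δ ^ n ≤ δ ^ min n (r + 1) := pow_le_pow_of_le_one hδ.le hδ1 (min_le_left _ _)
  have h7 : 1 ≤ Real.exp q₀ * Real.exp (-(β' * n)) := by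
    rw [← Real.exp_add]
    refine Real.one_le_exp ?_
    have h8 : (n:ℝ) ≤ q₀ := by exact_mod_cast hn.le
    have h9 : (0:ℝ) ≤ n := Nat.cast_nonneg n
    nlinarith
  calc x ≤ μ * δ ^ n := h5
    _ ≤ (μ * δ ^ min n (r + 1)) * 1 := by rw [mul_one]; exact mul_le_mul_of_nonneg_left h6 hμ
    _ ≤ (μ * δ ^ min n (r + 1)) * (Real.exp q₀ * Real.exp (-(β' * n))) := mul_le_mul_of_nonneg_left h7 (by positivity)
    _ = Real.exp q₀ * (μ * δ ^ min n (r + 1) * Real.exp (-(β' * n))) := by ring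

theorem mid_idx {C β β' δ μ x : ℝ} {n : ℕ} (hC : 0 ≤ C) (hδ : 0 < δ) (hμ : 0 ≤ μ) (hβ : β' ≤ β)
    (h5 : x ≤ C * μ * δ ^ n * Real.exp (-(β * n))) : x ≤ C * (μ * δ ^ n * Real.exp (-(β' * n))) := by
  have h7 : Real.exp (-(β * n)) ≤ Real.exp (-(β' * n)) :=
    Real.exp_le_exp.2 (neg_le_neg (mul_le_mul_of_nonneg_right hβ (Nat.cast_nonneg n)))
  calc x ≤ C * μ * δ ^ n * Real.exp (-(β * n)) := h5
    _ ≤ C * μ * δ ^ n * Real.exp (-(β' * n)) := mul_le_mul_of_nonneg_left h7 (by positivity)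
    _ = C * (μ * δ ^ n * Real.exp (-(β' * n))) := by ring

theorem LD_succ {B : ℝ} {C₀ q₀ : ℕ} (hB : 0 < B) {ι : ℝ}
    (h : ∀ (δ μ : ℝ) (a a' : ℤ → ℂ) (F : ℕ → (ℤ → ℂ) → ℂ) (L : ℕ → ℂ), 0 < δ → δ ≤ 1 → 0 ≤ μ →
      Pair B C₀ q₀ δ μ a a' F L → (∀ k, ‖a k‖ ≤ ι) → (∀ k, ‖a' k‖ ≤ ι) →
      ∀ k : ℤ, ‖a k - a' k‖ ≤ C₀ * (μ * δ ^ 2) * Real.exp (-(B * |(k : ℝ)|))) {r : ℕ} (hr : 2 ≤ r)
    (hι : 0 ≤ ι) (ih : LD B C₀ q₀ ι r) : LD B C₀ q₀ ι (r + 1) := by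
  obtain ⟨C, β, δ₀, hC, hβ, hβ1, hδ₀, hδ₀1, ih⟩ := ih
  have hZ := Z_nonneg (β - β / 2)
  set β' : ℝ := min β (B / (4 * r + 5)) with hβ'
  have hβ'0 : 0 < β' := by rw [hβ']; positivity
  have hβ'1 : β' ≤ β := min_le_left _ _
  have hBβ : (4 * (r:ℝ) + 5) * β' ≤ B := by
    have : β' ≤ B / (4 * r + 5) := min_le_right _ _
    rw [le_div_iff₀ (by positivity)] at this
    linarith
  set E : ℝ := ((4 * C₀).factorial : ℝ) / β' ^ (4 * C₀) with hE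
  have hE0 : 0 < E := by rw [hE]; positivity
  have hEn : ∀ n : ℕ, (n : ℝ) ^ (4 * C₀) ≤ E * Real.exp (β' * n) := fun n => pow_le_exp hβ'0 _ n
  set K₁ : ℝ := C * Z (β - β / 2) + 1 with hK₁
  set K₂ : ℝ := (2 * r + 1) * Real.exp (β / 2 * r) * C + 1 with hK₂
  have hK₁0 : 0 < K₁ := by rw [hK₁]; positivity
  have hK₂0 : 0 < K₂ := by rw [hK₂]; positivity
  set V : ℝ := (β / 2) ^ C₀ with hV
  have hV0 : 0 < V := by rw [hV]; positivity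
  set U : ℝ := V / (((C₀:ℝ) + 1) * E) with hU
  have hU0 : 0 < U := by rw [hU]; positivity
  set U₂ : ℝ := V / (((C₀:ℝ) + 1) * (2 * r + 4) ^ C₀) with hU₂
  have hU₂0 : 0 < U₂ := by rw [hU₂]; positivity
  set θ : ℝ := min 1 (min (U / (32 * K₁)) (U / (8 * K₂))) with hθ
  have hθ0 : 0 < θ := by rw [hθ]; positivity
  set s₀ : ℝ := min 1 (U₂ / (8 * K₂)) with hs₀
  have hs₀0 : 0 < s₀ := by rw [hs₀]; positivity
  have hs₀1 : s₀ ≤ 1 := min_le_left _ _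
  set K : ℝ := (C₀ : ℝ) ^ 4 * (256 * (K₂ + K₁ ^ 2) / V ^ 3) with hK
  have hK0 : 0 ≤ K := by rw [hK]; positivity
  set C₁ : ℝ := C₀ + 2 * K * E + K * (2 * r + 4) ^ (4 * C₀) * ((s₀⁻¹) ^ (2 * r + 4) + 1) * Real.exp (2 * r + 4) with hC₁
  have hC₁0 : 0 ≤ C₁ := by rw [hC₁]; positivity
  refine ⟨C + C₁ + Real.exp q₀, β', min δ₀ (min s₀ (θ ^ 4)), by positivity, hβ'0, hβ'1.trans hβ1, by positivity,
    (min_le_left _ _).trans hδ₀1, ?_⟩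
  intro δ μ a a' F L hδ hδ' hμ hp ha ha'
  have d1 : δ < δ₀ := hδ'.trans_le (min_le_left _ _)
  have d2 : δ < s₀ := hδ'.trans_le ((min_le_right _ _).trans (min_le_left _ _))
  have d3 : δ < θ ^ 4 := hδ'.trans_le ((min_le_right _ _).trans (min_le_right _ _))
  have hδ1 : δ ≤ 1 := d1.le.trans hδ₀1
  have l0 : Lv r C β δ μ (a - a') := ih δ μ a a' F L hδ d1 hμ hp ha ha'
  have l1 : Lv r C β δ 1 a := by
    have := ih δ 1 a 0 F L hδ d1 zero_le_one (hp.left hδ) ha (fun k => by simpa using hι)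
    rwa [sub_zero] at this
  have l2 : Lv r C β δ 1 a' := by
    have := ih δ 1 a' 0 F L hδ d1 zero_le_one (hp.right hδ) ha' (fun k => by simpa using hι)
    rwa [sub_zero] at this
  have st := h δ μ a a' F L hδ hδ1 hμ hp ha ha'
  set th : ℝ := Real.sqrt (Real.sqrt δ) with hth
  have hth0 : 0 < th := Real.sqrt_pos.2 (Real.sqrt_pos.2 hδ)
  have h4 : th ^ 4 = δ := by
    have e1 : th ^ 2 = Real.sqrt δ := Real.sq_sqrt (Real.sqrt_nonneg _)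
    have e2 : Real.sqrt δ ^ 2 = δ := Real.sq_sqrt hδ.le
    calc th ^ 4 = (th ^ 2) ^ 2 := by ring
      _ = δ := by rw [e1, e2]
  have hthθ : th ≤ θ := by
    have : th ^ 4 ≤ θ ^ 4 := by rw [h4]; exact d3.le
    exact (pow_le_pow_iff_left₀ hth0.le hθ0.le (by norm_num)).1 this
  have hth1 : th ≤ 1 := hthθ.trans (min_le_left _ _)
  have hC1 : (1:ℝ) ≤ C₀ := by exact_mod_cast hp.C1
  have hUle : U ≤ V / ((C₀:ℝ) * E) := div_le_div_of_nonneg_left hV0.le (by positivity) (by nlinarith)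
  have hU₂le : U₂ ≤ V / ((C₀:ℝ) * (2 * r + 4) ^ C₀) :=
    div_le_div_of_nonneg_left hV0.le (by positivity) (mul_le_mul_of_nonneg_right (by linarith) (by positivity))
  have t1 : 32 * K₁ * th ≤ V / ((C₀ : ℝ) * E) := by
    refine le_trans ?_ hUle
    have : th ≤ U / (32 * K₁) := hthθ.trans ((min_le_right _ _).trans (min_le_left _ _))
    rw [le_div_iff₀ (by positivity)] at this
    linarith
  have t2 : 8 * K₂ * th ≤ V / ((C₀ : ℝ) * E) := by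
    refine le_trans ?_ hUle
    have : th ≤ U / (8 * K₂) := hthθ.trans ((min_le_right _ _).trans (min_le_right _ _))
    rw [le_div_iff₀ (by positivity)] at this
    linarith
  have t3 : 8 * K₂ * s₀ ^ 2 ≤ V / ((C₀ : ℝ) * (2 * r + 4) ^ C₀) := by
    refine le_trans ?_ hU₂le
    have h5 : s₀ ≤ U₂ / (8 * K₂) := min_le_right _ _
    rw [le_div_iff₀ (by positivity)] at h5
    have h6 : s₀ ^ 2 ≤ s₀ := by
      calc s₀ ^ 2 ≤ s₀ ^ 1 := pow_le_pow_of_le_one hs₀0.le hs₀1 (by norm_num)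
        _ = s₀ := pow_one _
    calc 8 * K₂ * s₀ ^ 2 ≤ 8 * K₂ * s₀ := mul_le_mul_of_nonneg_left h6 (by positivity)
      _ ≤ U₂ := by linarith
  have hq : 0 < Real.exp q₀ := Real.exp_pos _
  have hnat : ∀ n : ℕ, ‖a n - a' n‖ ≤ (C + C₁ + Real.exp q₀) * (μ * δ ^ min n (r + 1) * Real.exp (-(β' * n))) := by
    intro n
    have e0 : 0 ≤ μ * δ ^ min n (r + 1) * Real.exp (-(β' * n)) := by positivity
    rcases lt_or_ge n q₀ with hn | hn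
    · have h5 := small_idx (β' := β') (r := r) hδ hδ1 hμ hβ'0.le (hβ'1.trans hβ1) hn (hp.grd n hn)
      exact h5.trans (mul_le_mul_of_nonneg_right (by linarith) e0)
    · rcases le_or_gt n r with hnr | hnr
      · have h5 := l0 n
        have h6 : |((n : ℤ) : ℝ)| = n := by simp
        rw [h6, Int.natAbs_natCast, min_eq_left hnr] at h5
        rw [min_eq_left (by omega)] at e0 ⊢
        exact (mid_idx hC.le hδ hμ hβ'1 h5).trans (mul_le_mul_of_nonneg_right (by linarith) e0)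
      · have h5 := idx hp hr hC.le hβ hβ1 hδ hδ1 hμ l1 l2 l0 st hβ'0 hβ'1 hBβ hE0 hEn hth0 h4 hth1 t1 t2 hs₀0 hs₀1 d2.le t3
          (K := K) rfl hn hnr
        rw [min_eq_right (by omega)] at e0 ⊢
        calc ‖a n - a' n‖ ≤ C₁ * μ * δ ^ (r + 1) * Real.exp (-(β' * n)) := h5
          _ = C₁ * (μ * δ ^ (r + 1) * Real.exp (-(β' * n))) := by ring
          _ ≤ _ := mul_le_mul_of_nonneg_right (by linarith) e0
  intro k
  have h5 := hnat k.natAbs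
  rw [← hp.sym k] at h5
  simp only [Pi.sub_apply]
  rw [abs_natAbs]
  linarith

/-- **[GB]** -/
theorem gb : GB := by
  intro B C₀ q₀ hB
  obtain ⟨ι, hι, h⟩ := start (C₀ := C₀) (q₀ := q₀) hB
  refine ⟨ι, hι, fun r => ?_⟩
  have key : ∀ j : ℕ, LD B C₀ q₀ ι (j + 2) := by
    intro j
    induction j with
    | zero => exact LD_two hB h
    | succ j ih => exact LD_succ hB h (by omega) hι.le ih
  obtain ⟨C, β, δ₀, hC, hβ, hβ1, hδ₀, hδ₀1, ih⟩ := key r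
  refine ⟨C, β, δ₀, hC, hβ, hδ₀, ?_⟩
  intro δ μ a a' F L hδ hδ' hμ hp ha ha' k
  have hδ1 : δ ≤ 1 := hδ'.le.trans hδ₀1
  have l0 := ih δ μ a a' F L hδ hδ' hμ hp ha ha' k
  have l1 := ih δ 1 a 0 F L hδ hδ' zero_le_one (hp.left hδ) ha (fun k => by simpa using hι.le) k
  have l2 := ih δ 1 a' 0 F L hδ hδ' zero_le_one (hp.right hδ) ha' (fun k => by simpa using hι.le) k
  have z0 : ∀ x : ℤ → ℂ, (x - 0) k = x k := fun x => by simp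
  rw [z0] at l1 l2
  simp only [Pi.sub_apply] at l0
  have hm : δ ^ min k.natAbs (r + 2) ≤ δ ^ min k.natAbs r :=
    pow_le_pow_of_le_one hδ.le hδ1 (min_le_min_left _ (by omega))
  have he := Real.exp_nonneg (-(β * |(k : ℝ)|))
  refine ⟨l1.trans ?_, l2.trans ?_, l0.trans ?_⟩
  · rw [mul_one]; gcongr
  · rw [mul_one]; gcongr
  · gcongr

end Vale.Agent.P097.D1G
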