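import Vale.Agent.P097.H209D.P4
import Vale.Agent.P097.H209D.Start2
import Vale.Agent.P097.H500.G.Bridge
import Vale.Agent.P097.H795.D1.Out
import Vale.Agent.P097.H795.D1.Lim2
import Vale.Agent.P097.D1G.GBoot

/-! # P097 / D1G : glue, part 1 (helper60) -/

set_option linter.all false

namespace Vale.Agent.P097.D1G

open Vale.Agent.P097 Vale.Agent.P097.FD Vale.Agent.P097.Reg Vale.Agent.P097.H407
open Vale.Agent.P097.H500.G (FM Fpn WS wn Lc)
open Vale.Agent.P097.H795.D1 (cv Num)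
open Filter
open scoped Topology

theorem strip_an {β M : ℝ} (hβ : 0 < β) {h : ℝ → ℝ} (S : StripTab β M h) :
    Vale.Agent.P097.An h := by
  obtain ⟨-, -, H, hH, -, hh⟩ := S
  have hO : IsOpen {z : ℂ | |z.im| < β} := isOpen_lt (by fun_prop) continuous_const
  have e : h = fun x : ℝ => (H x).re := by
    funext x; rw [hh, Complex.ofReal_re]
  intro x
  have hx : (x : ℂ) ∈ {z : ℂ | |z.im| < β} := by simpa using hβ
  have h1 : AnalyticAt ℂ H (x : ℂ) := hH.analyticAt (hO.mem_nhds hx)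
  have h2 : AnalyticAt ℝ (fun y : ℝ => (H y).re) x := by
    have h3 : AnalyticAt ℝ H ((Complex.ofRealCLM : ℝ →L[ℝ] ℂ) x) := h1.restrictScalars
    have h4 : AnalyticAt ℝ (fun y : ℝ => H (Complex.ofRealCLM y)) x :=
      h3.comp (Complex.ofRealCLM.analyticAt x)
    exact (Complex.reCLM.analyticAt _).comp h4
  rw [e]
  exact h2

theorem strip_adm {β M : ℝ} (hβ : 0 < β) (hM : 1 ≤ M) {h : ℝ → ℝ} (S : StripTab β M h) :
    Vale.Agent.P097.Adm h where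
  an := strip_an hβ S
  per := S.1
  nonneg := fun x => (S.rad_pos hM x).le
  dense := fun a b hab => by
    obtain ⟨x, hx⟩ := exists_between hab
    exact ⟨x, hx, S.rad_pos hM x⟩

theorem Fun.congr {b R M : ℝ} {m : ℕ} {L : ℂ} {F F' : (ℤ → ℂ) → ℂ} (hF : Fun b R M m L F)
    (h : ∀ a, Sm b a → nm b a < R → F' a = F a) : Fun b R M m L F' where
  hR := hF.hR
  hM := hF.hM
  bd := fun a ha hn => by rw [h a ha hn]; exact hF.bd a ha hn
  hol := fun a c ha hc => (hF.hol a c ha hc).congr fun t ht => h _ (ha.add (hc.smul t)) ht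
  rot := fun lam hl a ha hr h1 h2 => by
    rw [h _ hr h2, h _ ha h1]
    exact hF.rot lam hl a ha hr h1 h2
  lin := fun c hc => by
    refine (hF.lin c hc).congr_of_eventuallyEq ?_
    have hn := nm_nonneg b c
    have hc1 : 0 < nm b c + 1 := by linarith
    filter_upwards [Metric.ball_mem_nhds (0 : ℂ) (div_pos hF.hR hc1)] with t ht
    refine h _ (hc.smul t) ?_
    rw [nm_smul]
    rw [Metric.mem_ball, dist_zero_right, lt_div_iff₀ hc1] at ht
    have := norm_nonneg t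
    nlinarith

/-- vanishing of the functionals at a table with constant maxima -/
theorem FM_zero' {h : ℝ → ℝ} (H : Vale.Agent.P097.Adm h) {n p : ℕ} (hp : 1 ≤ p) (hpn : p ≤ n)
    (hC : PV.CstP h n p) {b : ℝ} (hb : 0 < b) (hb1 : b ≤ 1) {a : ℤ → ℂ}
    (ha : ∀ k, a k = R4.cf (fun x => h x - 1) k) (hs : Sm b a)
    (hw : nm b a ≤ b ^ 2 / (5120 * ((n + 1 : ℕ) : ℝ) ^ 6)) {m : ℕ} (hm : m ≠ 0) :
    Fpn p (n + 1) m a = 0 := by
  have hN : Num (n + 1) (Real.pi * p / ((n + 1 : ℕ) : ℝ)) (b / 2)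
      (b ^ 2 / (5120 * ((n + 1 : ℕ) : ℝ) ^ 6)) :=
    H795.D1.num_of (by omega) (by omega) (by positivity) (by linarith) (by positivity) (by
      apply le_of_eq
      ring)
  have := H209D.FM_zero H hp hpn hC (α := Real.pi * p / ((n + 1 : ℕ) : ℝ)) (by push_cast; rfl) hN ha
    (a := a) (b := b) hs hw (m := (m : ℤ)) (by exact_mod_cast hm)
  exact this

open Classical in
/-- the functional, cut off outside of the balls -/
noncomputable def Ft (C₀ n : ℕ) (a : ℤ → ℂ) : ℂ :=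
  if ∃ b : ℝ, 0 < b ∧ b ≤ 1 ∧ Sm b a ∧ nm b a < b ^ C₀ / ((C₀ : ℝ) * n ^ C₀) then Fpn 1 n n a else 0

theorem ft_fun {C₀ : ℕ} (hC : 20480 ≤ C₀) {b : ℝ} (hb : 0 < b) (hb1 : b ≤ 1) {n : ℕ} (hn : 2 ≤ n) :
    Fun b (b ^ C₀ / ((C₀ : ℝ) * n ^ C₀)) ((C₀ : ℝ) * n ^ C₀ / b ^ C₀) n
      (-(n * Real.sin (Real.pi / n) : ℝ)) (Ft C₀ n) :=
  (H500.G.fun_n H500.G.holP hC hb hb1 hn).congr fun a ha h => by
    unfold Ft
    rw [if_pos ⟨b, hb, hb1, ha, h⟩]

theorem rad_le {C₀ : ℕ} (hC : 20480 ≤ C₀) {b : ℝ} (hb : 0 < b) (hb1 : b ≤ 1) {n : ℕ} (hn : 1 ≤ n) :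
    b ^ C₀ / ((C₀ : ℝ) * n ^ C₀) ≤ b ^ 2 / (5120 * (n : ℝ) ^ 6) := by
  have hn1 : (1 : ℝ) ≤ n := by exact_mod_cast hn
  have hC' : (20480 : ℝ) ≤ C₀ := by exact_mod_cast hC
  have hbC : b ^ C₀ ≤ b ^ 2 := pow_le_pow_of_le_one hb.le hb1 (by omega)
  have hnC : (n : ℝ) ^ 6 ≤ n ^ C₀ := pow_le_pow_right₀ hn1 (by omega)
  exact div_le_div₀ (by positivity) hbC (by positivity)
    (mul_le_mul (by linarith) hnC (by positivity) (by linarith))

theorem ft_zero {h : ℝ → ℝ} (H : Vale.Agent.P097.Adm h) {C₀ : ℕ} (hC₀ : 20480 ≤ C₀) {n : ℕ}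
    (hn : 2 ≤ n) (hC : PV.CstP h (n - 1) 1) {a : ℤ → ℂ}
    (ha : ∀ k, a k = R4.cf (fun x => h x - 1) k) : Ft C₀ n a = 0 := by
  unfold Ft
  split_ifs with hc
  · obtain ⟨b, hb, hb1, hs, hw⟩ := hc
    obtain ⟨k, rfl⟩ : ∃ k, n = k + 1 := ⟨n - 1, by omega⟩
    exact FM_zero' H le_rfl (by omega) (by simpa using hC) hb hb1 ha hs
      (hw.le.trans (rad_le hC₀ hb hb1 (by omega))) (by omega)
  · rfl

end Vale.Agent.P097.D1G
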