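import Vale.Agent.P097.D1G.Glue1

/-! # P097 / D1G : glue, part 2: the pair and the uniform bounds (helper60) -/

set_option linter.all false

namespace Vale.Agent.P097.D1G

open Vale.Agent.P097 Vale.Agent.P097.FD Vale.Agent.P097.Reg Vale.Agent.P097.H407
open Vale.Agent.P097.H500.G (FM Fpn WS wn Lc)
open Vale.Agent.P097.H795.D1 (cv Num)
open Vale.Agent.P097.Disc (GS)
open Filter
open scoped Topology

/-- Fourier coefficients of `h - 1` -/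
noncomputable def sq (h : ℝ → ℝ) : ℤ → ℂ := fun k => R4.cf (fun x => h x - 1) k

theorem sq_eq {h : ℝ → ℝ} (hc : Continuous h) (k : ℤ) :
    sq h k = R4.cf h k - if k = 0 then 1 else 0 := H209D.cf_sub_one hc k

theorem pair_of {η β M : ℝ} (hη : 0 < η) (hβ : 0 < β) (hM : 1 ≤ M) :
    ∃ (B : ℝ) (C₀ q₀ : ℕ), 0 < B ∧ ∀ (h e : ℝ → ℝ) (δ μ K : ℝ),
      StripTab β M h → StripTab β M e → Rsn h η → Rsn e η → 0 < δ → 0 < μ → μ ≤ 1 → 0 ≤ K →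
      R4.cf e 0 = 1 → R4.cf e 1 = 0 → (∀ k : ℕ, 2 ≤ k → ‖R4.cf e k‖ ≤ (K * δ) ^ k) →
      R4.cf h 0 = 1 → R4.cf h 1 = 0 →
      (∀ k : ℕ, 2 ≤ k → k ≤ q₀ → ‖R4.cf h k - R4.cf e k‖ ≤ μ * δ ^ k) →
      Pair B C₀ q₀ ((K + 1) * δ) μ (sq h) (sq e) (Ft C₀)
        (fun n => (-(n * Real.sin (Real.pi / n) : ℝ) : ℂ)) ∧
      ((K + 1) * δ ≤ 1 → (∀ k, ‖sq h k‖ ≤ ((K + 1) * δ) ^ 2) ∧
          (∀ k, ‖sq e k‖ ≤ ((K + 1) * δ) ^ 2)) := by
  obtain ⟨B, C₁, N₁, hB, H⟩ := H209D.start_pair hη hβ hM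
  obtain ⟨N₂, hN₂⟩ := exists_nat_gt (Real.pi / η)
  set q₀ := max N₁ (max 2 N₂) with hq
  have hq1 : N₁ ≤ q₀ := le_max_left _ _
  have hq2 : 2 ≤ q₀ := (le_max_left _ _).trans (le_max_right _ _)
  have hq3 : N₂ ≤ q₀ := (le_max_right _ _).trans (le_max_right _ _)
  refine ⟨B, max C₁ 20480, q₀, hB, ?_⟩
  have hC₀ : 20480 ≤ max C₁ 20480 := le_max_right _ _
  have hC₁ : C₁ ≤ max C₁ 20480 := le_max_left _ _
  intro h e δ μ K th te rh re hδ hμ hμ1 hK e0 e1 ek h0 h1 hk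
  obtain ⟨st, st', std, cj, cj', low, low', gr, gr', grd, -, -, sm⟩ :=
    H q₀ hq1 h e δ μ K th te rh re hδ hμ hμ1 hK e0 e1 ek h0 h1 hk (sq h) (sq e) (fun _ => rfl)
      (fun _ => rfl)
  have hcst : ∀ g : ℝ → ℝ, Rsn g η → ∀ n : ℕ, q₀ ≤ n → PV.CstP g (n - 1) 1 := by
    intro g rg n hn
    refine rg.cstP (n - 1) 1 le_rfl (by omega) ?_
    have hn0 : (0 : ℝ) < n := by
      have : 0 < n := by omega
      exact_mod_cast this
    have e1 : (((n - 1 : ℕ) : ℝ) + 1) = n := by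
      rw [Nat.cast_sub (by omega)]; push_cast; ring
    rw [e1, Nat.cast_one, mul_one, div_lt_iff₀ hn0]
    rw [div_lt_iff₀ hη] at hN₂
    have : (N₂ : ℝ) ≤ n := by exact_mod_cast hq3.trans hn
    nlinarith
  refine ⟨?_, fun h1 => ⟨(sm h1).1, (sm h1).2.1⟩⟩
  constructor
  · intro b hb hb1 n hn
    exact ft_fun hC₀ hb hb1 (hq2.trans hn)
  · intro n hn
    exact H500.G.hL_n hC₀ (hq2.trans hn)
  · intro n hn
    exact ft_zero (strip_adm hβ hM th) hC₀ (hq2.trans hn) (hcst h rh n hn) fun _ => rfl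
  · intro n hn
    exact ft_zero (strip_adm hβ hM te) hC₀ (hq2.trans hn) (hcst e re n hn) fun _ => rfl
  · exact cj
  · exact cj'
  · exact low
  · exact low'
  · exact st.mono hC₁
  · exact st'.mono hC₁
  · exact std.mono hC₁
  · exact fun k hk => gr k hk.le
  · exact fun k hk => gr' k
  · exact fun k hk => grd k hk.le

/-- uniform graded bounds -/
theorem unif {η β M : ℝ} (hη : 0 < η) (hβ : 0 < β) (hM : 1 ≤ M) : ∃ N0 : ℕ,
    ∀ (h e : ℕ → ℝ → ℝ) (δ μ : ℕ → ℝ), GS η β M N0 h e δ μ → ∀ r : ℕ, ∃ C β' : ℝ, 0 < C ∧ 0 < β' ∧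
      ∀ᶠ j in atTop, ∀ k : ℤ,
        ‖sq (h j) k‖ ≤ C * δ j ^ min k.natAbs r * Real.exp (-(β' * |(k : ℝ)|)) ∧
        ‖sq (e j) k‖ ≤ C * δ j ^ min k.natAbs r * Real.exp (-(β' * |(k : ℝ)|)) ∧
        ‖sq (h j) k - sq (e j) k‖ ≤
          C * μ j * δ j ^ min k.natAbs r * Real.exp (-(β' * |(k : ℝ)|)) := by
  obtain ⟨B, C₀, q₀, hB, H⟩ := pair_of hη hβ hM
  obtain ⟨ι, hι, G⟩ := gb B C₀ q₀ hB
  refine ⟨q₀, fun h e δ μ hG r => ?_⟩
  obtain ⟨K, hK, hKe⟩ := hG.eg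
  obtain ⟨C, β', δ₀, hC, hβ', hδ₀, G⟩ := G r
  have hK1 : 0 < K + 1 := by linarith
  refine ⟨C * (K + 1) ^ r, β', by positivity, hβ', ?_⟩
  have lim : Tendsto (fun j => (K + 1) * δ j) atTop (𝓝 0) := by
    have := hG.dl.const_mul (K + 1)
    rwa [mul_zero] at this
  have lim2 : Tendsto (fun j => ((K + 1) * δ j) ^ 2) atTop (𝓝 0) := by
    have := lim.pow 2
    rwa [zero_pow two_ne_zero] at this
  filter_upwards [lim.eventually (gt_mem_nhds hδ₀), lim.eventually (gt_mem_nhds one_pos),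
    lim2.eventually (gt_mem_nhds hι)] with j h1 h2 h3
  obtain ⟨P, S⟩ := H (h j) (e j) (δ j) (μ j) K (hG.sh j) (hG.se j) (hG.rh j) (hG.re j) (hG.dp j)
    (hG.mp j) (hG.ml j) hK.le (hG.e0 j) (hG.e1 j) (fun k hk => hKe j k hk) (hG.b0 j) (hG.b1 j)
    (hG.bk j)
  obtain ⟨s1, s2⟩ := S h2.le
  have hd := hG.dp j
  have hm := hG.mp j
  have key := G ((K + 1) * δ j) (μ j) _ _ _ _ (by positivity) h1 hm.le P
    (fun k => (s1 k).trans h3.le) (fun k => (s2 k).trans h3.le)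
  have hpow : ∀ k : ℤ, ((K + 1) * δ j) ^ min k.natAbs r ≤ (K + 1) ^ r * δ j ^ min k.natAbs r := by
    intro k
    rw [mul_pow]
    gcongr
    · linarith
    · exact min_le_right _ _
  intro k
  obtain ⟨k1, k2, k3⟩ := key k
  refine ⟨k1.trans ?_, k2.trans ?_, k3.trans ?_⟩
  · calc _ ≤ C * ((K + 1) ^ r * δ j ^ min k.natAbs r) * Real.exp (-(β' * |(k : ℝ)|)) := by
          gcongr; exact hpow k
      _ = _ := by ring
  · calc _ ≤ C * ((K + 1) ^ r * δ j ^ min k.natAbs r) * Real.exp (-(β' * |(k : ℝ)|)) := by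
          gcongr; exact hpow k
      _ = _ := by ring
  · calc _ ≤ C * μ j * ((K + 1) ^ r * δ j ^ min k.natAbs r) * Real.exp (-(β' * |(k : ℝ)|)) := by
          gcongr; exact hpow k
      _ = _ := by ring

/-- log-free bounds for a fixed mode -/
theorem fixed {η β M : ℝ} (hβ : 0 < β) {N0 : ℕ} {h e : ℕ → ℝ → ℝ} {δ μ : ℕ → ℝ}
    (hG : GS η β M N0 h e δ μ)
    (H : ∀ r : ℕ, ∃ C β' : ℝ, 0 < C ∧ 0 < β' ∧ ∀ᶠ j in atTop, ∀ k : ℤ,
        ‖sq (h j) k‖ ≤ C * δ j ^ min k.natAbs r * Real.exp (-(β' * |(k : ℝ)|)) ∧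
        ‖sq (e j) k‖ ≤ C * δ j ^ min k.natAbs r * Real.exp (-(β' * |(k : ℝ)|)) ∧
        ‖sq (h j) k - sq (e j) k‖ ≤
          C * μ j * δ j ^ min k.natAbs r * Real.exp (-(β' * |(k : ℝ)|))) (k : ℕ) :
    ∃ C : ℝ, ∀ᶠ m in atTop, ‖R4.cf (h m) k - R4.cf (e m) k‖ ≤ C * μ m * δ m ^ k := by
  obtain ⟨C, β', hC, hβ', H⟩ := H k
  refine ⟨C, H.mono fun m hm => ?_⟩
  have h3 := (hm k).2.2
  have c1 := ((hG.sh m).contDiff hβ).continuous
  have c2 := ((hG.se m).contDiff hβ).continuous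
  rw [sq_eq c1, sq_eq c2, sub_sub_sub_cancel_right, Int.natAbs_natCast, min_self] at h3
  have hd := hG.dp m
  have hm' := hG.mp m
  have h4 : Real.exp (-(β' * |((k : ℤ) : ℝ)|)) ≤ 1 := by
    rw [Real.exp_le_one_iff]
    have := abs_nonneg ((k : ℤ) : ℝ)
    nlinarith
  exact h3.trans (mul_le_of_le_one_right (by positivity) h4)

end Vale.Agent.P097.D1G
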