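import Vale.Agent.P097.D1G.Glue2

/-! # P097 / D1G : glue, part 3: `D1O` and `D1R` (helper60) -/

set_option linter.all false

namespace Vale.Agent.P097.D1G

open Vale.Agent.P097 Vale.Agent.P097.FD Vale.Agent.P097.Reg Vale.Agent.P097.H407
open Vale.Agent.P097.H500.G (FM Fpn WS wn Lc)
open Vale.Agent.P097.H795.D1 (cv Num)
open Vale.Agent.P097.Disc (GS aa)
open Filter
open scoped Topology

/-- uniform graded bounds, with the same constants -/
def Ub (C β' : ℝ) (r : ℕ) (δ μ : ℝ) (a a' : ℤ → ℂ) : Prop := ∀ k : ℤ,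
  ‖a k‖ ≤ C * δ ^ min k.natAbs r * Real.exp (-(β' * |(k : ℝ)|)) ∧
  ‖a' k‖ ≤ C * δ ^ min k.natAbs r * Real.exp (-(β' * |(k : ℝ)|)) ∧
  ‖a k - a' k‖ ≤ C * μ * δ ^ min k.natAbs r * Real.exp (-(β' * |(k : ℝ)|))

theorem sq_low {h : ℝ → ℝ} (hc : Continuous h) (h0 : R4.cf h 0 = 1) (h1 : R4.cf h 1 = 0) (k : ℤ)
    (hk : |k| ≤ 1) : sq h k = 0 := by
  have : k = -1 ∨ k = 0 ∨ k = 1 := by rw [abs_le] at hk; omega
  have e1 : sq h 1 = 0 := by rw [sq_eq hc, h1]; simp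
  rcases this with rfl | rfl | rfl
  · have : sq h (-1) = (starRingEnd ℂ) (sq h 1) := R4.cf_conj _ 1
    rw [this, e1, map_zero]
  · rw [sq_eq hc, h0]; simp
  · exact e1

/-- smallness of the norm -/
theorem nm_small {C β' b : ℝ} {r : ℕ} (hC : 0 ≤ C) (hb : b < β') (hr : 1 ≤ r) {δ : ℝ} (hδ : 0 < δ) (hδ1 : δ ≤ 1)
    {a : ℤ → ℂ} (ha : ∀ k : ℤ, ‖a k‖ ≤ C * δ ^ min k.natAbs r * Real.exp (-(β' * |(k : ℝ)|)))
    (hlow : ∀ k : ℤ, |k| ≤ 1 → a k = 0) : Sm b a ∧ nm b a ≤ C * δ * Z (β' - b) := by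
  refine sm_of_bound hb fun k => ?_
  by_cases hk : |k| ≤ 1
  · rw [hlow k hk, norm_zero]; positivity
  · refine (ha k).trans ?_
    have h1 : 1 ≤ min k.natAbs r := by
      rw [Int.abs_eq_natAbs] at hk
      omega
    have h2 : δ ^ min k.natAbs r ≤ δ := by
      calc δ ^ min k.natAbs r ≤ δ ^ 1 := pow_le_pow_of_le_one hδ.le hδ1 h1
        _ = δ := pow_one δ
    gcongr

/-- eventual vanishing of the functionals -/
theorem ev_zero {η β M : ℝ} (hβ : 0 < β) (hM : 1 ≤ M) {h : ℕ → ℝ → ℝ} {δ : ℕ → ℝ}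
    (sh : ∀ m, StripTab β M (h m)) (rh : ∀ m, Rsn (h m) η) (dp : ∀ m, 0 < δ m)
    (dl : Tendsto δ atTop (𝓝 0)) (b0 : ∀ m, R4.cf (h m) 0 = 1) (b1 : ∀ m, R4.cf (h m) 1 = 0)
    {C β' b : ℝ} {r : ℕ} (hC : 0 ≤ C) (hb0 : 0 < b) (hb1 : b ≤ 1) (hb : b < β') (hr : 1 ≤ r)
    (ha : ∀ᶠ j in atTop, ∀ k : ℤ,
      ‖sq (h j) k‖ ≤ C * δ j ^ min k.natAbs r * Real.exp (-(β' * |(k : ℝ)|)))
    {n p : ℕ} (hp : 1 ≤ p) (hpn : p ≤ n) (hη : Real.pi * p / ((n : ℝ) + 1) < η) :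
    ∀ᶠ j in atTop, ∀ m : ℕ, m ≠ 0 → Fpn p (n + 1) m (sq (h j)) = 0 := by
  have lim : Tendsto (fun j => C * δ j * Z (β' - b)) atTop (𝓝 0) := by
    have := (dl.const_mul C).mul_const (Z (β' - b))
    simpa using this
  have hpos : (0 : ℝ) < b ^ 2 / (5120 * ((n + 1 : ℕ) : ℝ) ^ 6) := by positivity
  filter_upwards [ha, lim.eventually (gt_mem_nhds hpos), dl.eventually (gt_mem_nhds one_pos)] with
    j h1 h2 h3
  intro m hm
  have hc := ((sh j).contDiff hβ).continuous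
  obtain ⟨s1, s2⟩ := nm_small hC hb hr (dp j) h3.le h1 (sq_low hc (b0 j) (b1 j))
  exact FM_zero' (strip_adm hβ hM (sh j)) hp hpn ((rh j).cstP n p hp hpn hη) hb0 hb1 (fun _ => rfl) s1
    (s2.trans h2.le) hm

/-- limits of the rescaled coefficients -/
theorem lim_sq {β M : ℝ} (hβ : 0 < β) {h : ℕ → ℝ → ℝ} {δ : ℕ → ℝ}
    (sh : ∀ m, StripTab β M (h m)) (b0 : ∀ m, R4.cf (h m) 0 = 1) {c : ℕ → ℂ}
    (hc : ∀ k : ℕ, Tendsto (fun m => R4.cf (h m) k / (δ m : ℂ) ^ k) atTop (𝓝 (c k))) (k : ℕ) :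
    Tendsto (fun m => sq (h m) k / (δ m : ℂ) ^ k) atTop (𝓝 ((fun k => if k = 0 then 0 else c k) k)) := by
  have e : ∀ m, sq (h m) k = R4.cf (h m) k - if (k : ℤ) = 0 then 1 else 0 := fun m =>
    sq_eq ((sh m).contDiff hβ).continuous k
  by_cases hk : k = 0
  · subst hk
    have e2 : ∀ m, sq (h m) ((0 : ℕ) : ℤ) = 0 := by
      intro m
      rw [e, Nat.cast_zero, b0]; simp
    simp only [e2]
    simp
  · have e2 : ∀ m, sq (h m) (k : ℤ) = R4.cf (h m) k := by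
      intro m
      rw [e, if_neg (by exact_mod_cast hk), sub_zero]
    simp only [e2, if_neg hk]
    exact hc k

theorem shift_tendsto {α : Type*} {f : ℕ → α} {l : Filter α} (h : Tendsto f atTop l) (J : ℕ) :
    Tendsto (fun j => f (j + J)) atTop l := h.comp (tendsto_add_atTop_nat J)

/-- **D1, at the disc** -/
theorem d1O : Disc.D1O := by
  intro η β M hη hβ hM
  obtain ⟨N0, H⟩ := unif hη hβ hM
  refine ⟨N0, fun h δ hG => ?_⟩
  have H := H h _ δ _ hG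
  refine ⟨fun k hk => ?_, ?_⟩
  · obtain ⟨C, hC⟩ := fixed hβ hG H k
    refine ⟨C, hC.mono fun m hm => ?_⟩
    have e : R4.cf (fun _ => (1 : ℝ)) (k : ℤ) = 0 := by
      rw [H209D.cf_one, if_neg (by omega)]
    rw [e, sub_zero, mul_one] at hm
    exact hm
  · intro c hc n p hp hpn hη' r
    have hc0 : c 0 = 1 := by
      have h1 := hc 0
      have h2 : (fun m => R4.cf (h m) ((0 : ℕ) : ℤ) / (δ m : ℂ) ^ 0) = fun _ => (1 : ℂ) := by
        funext m
        rw [Nat.cast_zero, hG.b0]; simp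
      rw [h2] at h1
      exact tendsto_nhds_unique h1 tendsto_const_nhds
    have key := H500.G.orb_of_F (a := c) (c := fun k => if k = 0 then 0 else c k) (r := r)
      (n := n + 1) (p := p) (by omega) (by omega) hc0 (by simp)
      (fun m hm => by simp only [if_neg (by omega : m ≠ 0)]) ?_
    · exact key
    · intro m hm hmr
      obtain ⟨C, β', hC, hβ', Hev⟩ := H r
      set b := min (β' / 2) 1 with hb
      have hb0 : 0 < b := by rw [hb]; positivity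
      have hb1 : b ≤ 1 := min_le_right _ _
      have hb2 : b < β' := (min_le_left _ _).trans_lt (by linarith)
      have hev1 : ∀ᶠ j in atTop, ∀ k : ℤ,
        ‖sq (h j) k‖ ≤ C * δ j ^ min k.natAbs r * Real.exp (-(β' * |(k : ℝ)|)) :=
        Hev.mono fun j hj k => (hj k).1
      have hev2 := ev_zero hβ hM hG.sh hG.rh hG.dp hG.dl hG.b0 hG.b1 hC.le hb0 hb1 hb2
        (hm.trans hmr) hev1 hp (by omega : p ≤ n) hη'
      obtain ⟨J, hJ⟩ := eventually_atTop.1 (hev1.and hev2)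
      obtain ⟨R, M', hF⟩ := H500.G.fun_pn H500.G.holP (p := p) (n := n + 1) (by omega) (by omega)
        hb0 hb1 m
      exact H795.D1.lim1 b β' R M' m _ _ hb0 hb2 hm hF (fun j => sq (h (j + J)))
        (fun j => δ (j + J)) C r _ hmr (fun j => hG.dp _) (shift_tendsto hG.dl J)
        (fun j k => (hJ (j + J) (by omega)).1 k)
        (fun j k hk => sq_low ((hG.sh _).contDiff hβ).continuous (hG.b0 _) (hG.b1 _) k hk)
        (fun j => (hJ (j + J) (by omega)).2 m (by omega))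
        (fun k => shift_tendsto (lim_sq hβ hG.sh hG.b0 hc k) J)

/-- the relative bridge (809): explicit orbits of the one-sided conic -/
def RELB : Prop := ∀ (c g : ℕ → ℂ) (b : ℂ) (n p : ℕ), c 0 = 1 → c 1 = 0 → g 0 = 0 → g 1 = 0 →
  (PowerSeries.mk c) ^ 2 = 1 + PowerSeries.C b * PowerSeries.X ^ 2 → 1 ≤ p → 2 * p < n + 1 →
  (∀ r m : ℕ, 1 ≤ m → m ≤ r → ∃ s₀ : ℝ, 0 < s₀ ∧ ∀ s : ℂ, ‖s‖ < s₀ → s ≠ 0 →
    HasDerivAt (fun t : ℂ => Fpn p (n + 1) m (rot s (tr r (os fun k => if k = 0 then 0 else c k)) +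
      t • rot s (tr r (os g)))) 0 0) →
  ∀ G : ℕ → ℂ, Disc.IsG c g G → Disc.RelG b G (n + 1) p

/-- **D1, relative** -/
theorem d1R_of (hR : RELB) : Disc.D1R := by
  intro η β M hη hβ hM
  obtain ⟨N0, H⟩ := unif hη hβ hM
  refine ⟨N0, fun h e δ μ hG hμ0 => ?_⟩
  have H := H h e δ μ hG
  refine ⟨fun k hk => fixed hβ hG H k, ?_⟩
  intro c g b hc0 hc1 hcb hc hg n p hp hpn hη'
  have hdk : ∀ m (k : ℕ), sq (h m) k - sq (e m) k = R4.cf (h m) k - R4.cf (e m) k := by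
    intro m k
    rw [sq_eq ((hG.sh m).contDiff hβ).continuous, sq_eq ((hG.se m).contDiff hβ).continuous,
      sub_sub_sub_cancel_right]
  have hg0 : g 0 = 0 := by
    have h1 := hg 0
    have h2 : (fun m => (R4.cf (h m) ((0 : ℕ) : ℤ) - R4.cf (e m) ((0 : ℕ) : ℤ)) /
        ((μ m : ℂ) * (δ m : ℂ) ^ 0)) = fun _ => (0 : ℂ) := by
      funext m
      rw [Nat.cast_zero, hG.b0, hG.e0]; simp
    rw [h2] at h1
    exact tendsto_nhds_unique h1 tendsto_const_nhds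
  have hg1 : g 1 = 0 := by
    have h1 := hg 1
    have h2 : (fun m => (R4.cf (h m) ((1 : ℕ) : ℤ) - R4.cf (e m) ((1 : ℕ) : ℤ)) /
        ((μ m : ℂ) * (δ m : ℂ) ^ 1)) = fun _ => (0 : ℂ) := by
      funext m
      rw [Nat.cast_one, hG.b1, hG.e1]; simp
    rw [h2] at h1
    exact tendsto_nhds_unique h1 tendsto_const_nhds
  refine hR c g b n p hc0 hc1 hg0 hg1 hcb hp hpn ?_
  intro r m hm hmr
  obtain ⟨C, β', hC, hβ', Hev⟩ := H r
  set b' := min (β' / 2) 1 with hb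
  have hb0 : 0 < b' := by rw [hb]; positivity
  have hb1 : b' ≤ 1 := min_le_right _ _
  have hb2 : b' < β' := (min_le_left _ _).trans_lt (by linarith)
  have hev1 : ∀ᶠ j in atTop, ∀ k : ℤ,
    ‖sq (h j) k‖ ≤ C * δ j ^ min k.natAbs r * Real.exp (-(β' * |(k : ℝ)|)) :=
    Hev.mono fun j hj k => (hj k).1
  have hev1' : ∀ᶠ j in atTop, ∀ k : ℤ,
    ‖sq (e j) k‖ ≤ C * δ j ^ min k.natAbs r * Real.exp (-(β' * |(k : ℝ)|)) :=
    Hev.mono fun j hj k => (hj k).2.1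
  have hev2 := ev_zero hβ hM hG.sh hG.rh hG.dp hG.dl hG.b0 hG.b1 hC.le hb0 hb1 hb2
    (hm.trans hmr) hev1 hp (by omega : p ≤ n) hη'
  have hev2' := ev_zero hβ hM hG.se hG.re hG.dp hG.dl hG.e0 hG.e1 hC.le hb0 hb1 hb2
    (hm.trans hmr) hev1' hp (by omega : p ≤ n) hη'
  obtain ⟨J, hJ⟩ := eventually_atTop.1 ((Hev.and hev2).and hev2')
  obtain ⟨R, M', hF⟩ := H500.G.fun_pn H500.G.holP (p := p) (n := n + 1) (by omega) (by omega)
    hb0 hb1 m
  exact H795.D1.lim2 b' β' R M' m _ _ hb0 hb2 hm hF (fun j => sq (h (j + J)))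
    (fun j => sq (e (j + J))) (fun j => δ (j + J)) (fun j => μ (j + J)) C r _ g hmr
    (fun j => hG.dp _) (fun j => hG.mp _) (shift_tendsto hG.dl J)
    (fun j k => ((hJ (j + J) (by omega)).1.1 k).1)
    (fun j k => ((hJ (j + J) (by omega)).1.1 k).2.1)
    (fun j k => ((hJ (j + J) (by omega)).1.1 k).2.2)
    (fun j k hk => sq_low ((hG.sh _).contDiff hβ).continuous (hG.b0 _) (hG.b1 _) k hk)
    (fun j k hk => sq_low ((hG.se _).contDiff hβ).continuous (hG.e0 _) (hG.e1 _) k hk)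
    (fun j => (hJ (j + J) (by omega)).1.2 m (by omega))
    (fun j => (hJ (j + J) (by omega)).2 m (by omega))
    (shift_tendsto hμ0 J)
    (fun k => shift_tendsto (lim_sq hβ hG.se hG.e0 hc k) J)
    (fun k => by
      simp only [hdk]
      exact shift_tendsto (hg k) J)

end Vale.Agent.P097.D1G
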