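import Vale.Agent.P097.D1G.Glue3
import Vale.Agent.P097.H809D.Rel

/-! # P097 / D1G : glue, part 4: `D1R` (helper60) -/

set_option linter.all false

namespace Vale.Agent.P097.D1G

theorem relb : RELB := by
  intro c g b n p hc0 hc1 hg0 hg1 hcb hp hpn H G hG
  exact H809D.rel_of_F (c := c) (c' := fun k => if k = 0 then 0 else c k) (g := g) (G := G)
    (b := b) (n := n + 1) (p := p) (r := n + 1) (by omega) hpn le_rfl hc0 (by simp)
    (fun m hm => by simp only [if_neg (by omega : m ≠ 0)]) hcb
    (fun m hm hmr => H (n + 1) m hm hmr) hG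

/-- **D1, relative** -/
theorem d1R : Disc.D1R := d1R_of relb

end Vale.Agent.P097.D1G
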