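import Vale.Agent.P097.D1G.Step

/-! # P097 / D1G : one level of the bootstrap -/

set_option linter.all false

open Filter Set Metric

namespace Vale.Agent.P097.D1G

theorem pow_le_exp {γ : ℝ} (hγ : 0 < γ) (P : ℕ) (n : ℕ) :
    (n : ℝ) ^ P ≤ (P.factorial : ℝ) / γ ^ P * Real.exp (γ * n) := by
  have h := Real.pow_div_factorial_le_exp (x := γ * n) (by positivity) P
  rw [mul_pow, div_le_iff₀ (by positivity)] at h
  rw [div_mul_eq_mul_div, le_div_iff₀ (by positivity)]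
  linarith

/-- case B -/
theorem caseB {B β' δ th μ x : ℝ} {C₀ r n : ℕ} (hth : 0 < th) (h4 : th ^ 4 = δ) (hδ1 : δ ≤ 1) (hμ : 0 ≤ μ)
    (hβ : 0 ≤ β') (hB : (4 * r + 5) * β' ≤ B) (hc : Real.exp (-(β' * n)) ≤ th)
    (hx : x ≤ C₀ * (μ * δ ^ 2) * Real.exp (-(B * n))) : x ≤ C₀ * μ * δ ^ (r + 1) * Real.exp (-(β' * n)) := by
  have hδ : 0 < δ := by rw [← h4]; positivity
  have h1 : Real.exp (-(β' * n)) ^ (4 * (r + 1)) ≤ δ ^ (r + 1) := by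
    rw [← h4, ← pow_mul]
    exact pow_le_pow_left₀ (Real.exp_nonneg _) hc _
  have h2 : Real.exp (-(B * n)) ≤ Real.exp (-(β' * n)) ^ (4 * (r + 1)) * Real.exp (-(β' * n)) := by
    rw [← pow_succ, ← Real.exp_nat_mul]
    refine Real.exp_le_exp.2 ?_
    push_cast
    have hn : (0:ℝ) ≤ n := Nat.cast_nonneg n
    nlinarith [mul_le_mul_of_nonneg_right hB hn]
  have h3 : Real.exp (-(B * n)) ≤ δ ^ (r + 1) * Real.exp (-(β' * n)) :=
    h2.trans (mul_le_mul_of_nonneg_right h1 (Real.exp_nonneg _))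
  have h5 : δ ^ 2 ≤ 1 := pow_le_one₀ hδ.le hδ1
  calc x ≤ C₀ * (μ * δ ^ 2) * Real.exp (-(B * n)) := hx
    _ ≤ C₀ * (μ * 1) * (δ ^ (r + 1) * Real.exp (-(β' * n))) := by gcongr
    _ = _ := by ring

/-- case A2 -/
theorem caseA2 {β' δ th μ x K E : ℝ} {P r n : ℕ} (hth : 0 < th) (h4 : th ^ 4 = δ) (hth1 : th ≤ 1) (hμ : 0 ≤ μ)
    (hK : 0 ≤ K) (hE : 0 ≤ E) (hc : Real.exp (β' * n) ≤ th⁻¹) (hn : 2 * r + 5 ≤ n)
    (hP : (n : ℝ) ^ P ≤ E * Real.exp (β' * n)) (hx : x ≤ K * (n : ℝ) ^ P * μ * ((δ / th) ^ n + δ ^ (r + 2))) :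
    x ≤ 2 * K * E * μ * δ ^ (r + 1) * Real.exp (-(β' * n)) := by
  have hδ : 0 < δ := by rw [← h4]; positivity
  have h1 : (δ / th) ^ n ≤ δ ^ (r + 2) := by
    have e1 : δ / th = th ^ 3 := by rw [← h4]; field_simp
    rw [e1, ← h4, ← pow_mul, ← pow_mul]
    exact pow_le_pow_of_le_one hth.le hth1 (by omega)
  have h2 : (n : ℝ) ^ P ≤ E * th⁻¹ := hP.trans (mul_le_mul_of_nonneg_left hc hE)
  have h3 : th ≤ Real.exp (-(β' * n)) := by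
    rw [Real.exp_neg]
    rw [le_inv_comm₀ hth (Real.exp_pos _)]
    exact hc
  have h5 : th⁻¹ * δ ^ (r + 2) ≤ δ ^ (r + 1) * Real.exp (-(β' * n)) := by
    have e1 : th⁻¹ * δ ^ (r + 2) = δ ^ (r + 1) * th ^ 3 := by
      rw [pow_succ δ (r + 1), ← h4]
      field_simp
    rw [e1]
    refine mul_le_mul_of_nonneg_left ?_ (by positivity)
    refine le_trans ?_ h3
    calc th ^ 3 ≤ th ^ 1 := pow_le_pow_of_le_one hth.le hth1 (by norm_num)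
      _ = th := pow_one _
  calc x ≤ K * (n : ℝ) ^ P * μ * ((δ / th) ^ n + δ ^ (r + 2)) := hx
    _ ≤ K * (E * th⁻¹) * μ * (δ ^ (r + 2) + δ ^ (r + 2)) := by gcongr
    _ = 2 * K * E * μ * (th⁻¹ * δ ^ (r + 2)) := by ring
    _ ≤ 2 * K * E * μ * (δ ^ (r + 1) * Real.exp (-(β' * n))) := mul_le_mul_of_nonneg_left h5 (by positivity)
    _ = _ := by ring

/-- case A1 -/
theorem caseA1 {β' δ s₀ μ x K : ℝ} {P r n : ℕ} (hδ : 0 < δ) (hδ1 : δ ≤ 1) (hs : 0 < s₀) (hs1 : s₀ ≤ 1) (hμ : 0 ≤ μ)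
    (hK : 0 ≤ K) (hβ : 0 ≤ β') (hβ1 : β' ≤ 1) (hn : n ≤ 2 * r + 4) (hrn : r < n)
    (hx : x ≤ K * (n : ℝ) ^ P * μ * ((δ / s₀) ^ n + δ ^ (r + 2))) :
    x ≤ K * (2 * r + 4) ^ P * ((s₀⁻¹) ^ (2 * r + 4) + 1) * Real.exp (2 * r + 4) * μ * δ ^ (r + 1) * Real.exp (-(β' * n)) := by
  have hn' : (n : ℝ) ≤ 2 * r + 4 := by exact_mod_cast hn
  have hn0 : (0 : ℝ) ≤ n := Nat.cast_nonneg n
  have h1 : (n : ℝ) ^ P ≤ (2 * r + 4) ^ P := pow_le_pow_left₀ hn0 hn' _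
  have h2 : (δ / s₀) ^ n ≤ (s₀⁻¹) ^ (2 * r + 4) * δ ^ (r + 1) := by
    rw [div_eq_inv_mul, mul_pow]
    refine mul_le_mul ?_ (pow_le_pow_of_le_one hδ.le hδ1 hrn) (by positivity) (by positivity)
    exact pow_le_pow_right₀ ((one_le_inv₀ hs).2 hs1) hn
  have h3 : δ ^ (r + 2) ≤ δ ^ (r + 1) := pow_le_pow_of_le_one hδ.le hδ1 (by omega)
  have h5 : 1 ≤ Real.exp (2 * r + 4) * Real.exp (-(β' * n)) := by
    rw [← Real.exp_add]
    refine Real.one_le_exp ?_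
    nlinarith
  calc x ≤ K * (n : ℝ) ^ P * μ * ((δ / s₀) ^ n + δ ^ (r + 2)) := hx
    _ ≤ K * (2 * r + 4) ^ P * μ * ((s₀⁻¹) ^ (2 * r + 4) * δ ^ (r + 1) + δ ^ (r + 1)) := by gcongr
    _ = (K * (2 * r + 4) ^ P * ((s₀⁻¹) ^ (2 * r + 4) + 1) * μ * δ ^ (r + 1)) * 1 := by ring
    _ ≤ (K * (2 * r + 4) ^ P * ((s₀⁻¹) ^ (2 * r + 4) + 1) * μ * δ ^ (r + 1)) * (Real.exp (2 * r + 4) * Real.exp (-(β' * n))) :=
        mul_le_mul_of_nonneg_left h5 (by positivity)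
    _ = _ := by ring

/-- lower bound of the radius -/
theorem rad_low {V C n1 E th : ℝ} (hV : 0 < V) (hC : 0 < C) (hn : 0 < n1) (hE : 0 < E) (hth : 0 < th) (h : n1 ≤ E * th⁻¹) :
    V * th / (C * E) ≤ V / (C * n1) := by
  rw [div_le_div_iff₀ (by positivity) (by positivity)]
  have h1 : n1 * th ≤ E := by
    calc n1 * th ≤ E * th⁻¹ * th := mul_le_mul_of_nonneg_right h hth.le
      _ = E := by field_simp
  calc V * th * (C * n1) = V * C * (n1 * th) := by ring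
    _ ≤ V * C * E := mul_le_mul_of_nonneg_left h1 (by positivity)
    _ = V * (C * E) := by ring

section
variable {B : ℝ} {C₀ q₀ : ℕ} {δ μ : ℝ} {a a' : ℤ → ℂ} {F : ℕ → (ℤ → ℂ) → ℂ} {L : ℕ → ℂ}

/-- one index, all cases -/
theorem idx (hp : Pair B C₀ q₀ δ μ a a' F L) {r : ℕ} {C β β' E th s₀ : ℝ} (hr : 2 ≤ r) (hC : 0 ≤ C) (hβ : 0 < β)
    (hβ1 : β ≤ 1) (hδ : 0 < δ) (hδ1 : δ ≤ 1) (hμ : 0 ≤ μ) (la : Lv r C β δ 1 a) (la' : Lv r C β δ 1 a')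
    (ld : Lv r C β δ μ (a - a')) (st : ∀ k : ℤ, ‖a k - a' k‖ ≤ C₀ * (μ * δ ^ 2) * Real.exp (-(B * |(k : ℝ)|)))
    (hβ' : 0 < β') (hββ' : β' ≤ β) (hB : (4 * r + 5) * β' ≤ B) (hE : 0 < E)
    (hEn : ∀ n : ℕ, (n : ℝ) ^ (4 * C₀) ≤ E * Real.exp (β' * n)) (hth : 0 < th) (h4 : th ^ 4 = δ) (hth1 : th ≤ 1)
    (t1 : 32 * (C * Z (β - β / 2) + 1) * th ≤ (β / 2) ^ C₀ / ((C₀ : ℝ) * E))
    (t2 : 8 * ((2 * r + 1) * Real.exp (β / 2 * r) * C + 1) * th ≤ (β / 2) ^ C₀ / ((C₀ : ℝ) * E))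
    (hs : 0 < s₀) (hs1 : s₀ ≤ 1) (hδs : δ ≤ s₀)
    (t3 : 8 * ((2 * r + 1) * Real.exp (β / 2 * r) * C + 1) * s₀ ^ 2 ≤ (β / 2) ^ C₀ / ((C₀ : ℝ) * (2 * r + 4) ^ C₀))
    {K : ℝ} (hK : K = (C₀ : ℝ) ^ 4 * (256 * (((2 * r + 1) * Real.exp (β / 2 * r) * C + 1) +
      (C * Z (β - β / 2) + 1) ^ 2) / ((β / 2) ^ C₀) ^ 3)) {n : ℕ} (hn : q₀ ≤ n) (hrn : r < n) :
    ‖a n - a' n‖ ≤ (C₀ + 2 * K * E + K * (2 * r + 4) ^ (4 * C₀) * ((s₀⁻¹) ^ (2 * r + 4) + 1) * Real.exp (2 * r + 4)) *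
      μ * δ ^ (r + 1) * Real.exp (-(β' * n)) := by
  have hZ := Z_nonneg (β - β / 2)
  have hK0 : 0 ≤ K := by rw [hK]; positivity
  have hC1 := hp.C1
  have hC1' : (1:ℝ) ≤ C₀ := by exact_mod_cast hC1
  have hn1 := hp.n1 hn
  have hn1' : (1:ℝ) ≤ n := by exact_mod_cast hn1
  have hK₁ : 0 < C * Z (β - β / 2) + 1 := by positivity
  have hK₂ : 0 < (2 * (r:ℝ) + 1) * Real.exp (β / 2 * r) * C + 1 := by positivity
  have hV : 0 < (β / 2) ^ C₀ := by positivity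
  have x0 : 0 ≤ K * (2 * (r:ℝ) + 4) ^ (4 * C₀) * ((s₀⁻¹) ^ (2 * r + 4) + 1) * Real.exp (2 * r + 4) := by positivity
  have x1 : 0 ≤ 2 * K * E := by positivity
  have x2 : (0:ℝ) ≤ C₀ := by positivity
  have e0 : 0 ≤ μ * δ ^ (r + 1) * Real.exp (-(β' * n)) := by positivity
  have hnat : |((n : ℤ) : ℝ)| = n := by simp
  rcases le_or_gt (Real.exp (-(β' * n))) th with hc | hc
  · -- case B
    have h1 := st n
    rw [hnat] at h1
    have h2 := caseB hth h4 hδ1 hμ hβ'.le hB hc h1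
    refine h2.trans ?_
    have : (C₀ : ℝ) * (μ * δ ^ (r + 1) * Real.exp (-(β' * n))) ≤ (C₀ + 2 * K * E + K * (2 * r + 4) ^ (4 * C₀) *
        ((s₀⁻¹) ^ (2 * r + 4) + 1) * Real.exp (2 * r + 4)) * (μ * δ ^ (r + 1) * Real.exp (-(β' * n))) :=
      mul_le_mul_of_nonneg_right (by linarith) e0
    linarith
  · -- case A
    have hexp : Real.exp (β' * n) ≤ th⁻¹ := by
      have h1 := hc.le
      rw [Real.exp_neg] at h1
      rw [le_inv_comm₀ (Real.exp_pos _) hth]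
      exact h1
    have hpw : (n:ℝ) ^ C₀ ≤ E * th⁻¹ := by
      calc (n:ℝ) ^ C₀ ≤ (n:ℝ) ^ (4 * C₀) := pow_le_pow_right₀ hn1' (by omega)
        _ ≤ E * Real.exp (β' * n) := hEn n
        _ ≤ E * th⁻¹ := mul_le_mul_of_nonneg_left hexp hE.le
    have hrad := rad_low hV (by linarith : (0:ℝ) < C₀) (by positivity : (0:ℝ) < (n:ℝ) ^ C₀) hE hth hpw
    have hth2 : δ ^ 2 ≤ th ^ 2 := by
      rw [← h4, ← pow_mul]
      exact pow_le_pow_of_le_one hth.le hth1 (by norm_num)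
    have c1 : 32 * (C * Z (β - β / 2) + 1) * δ ^ 2 ≤ (β / 2) ^ C₀ / ((C₀ : ℝ) * n ^ C₀) := by
      refine le_trans ?_ hrad
      calc 32 * (C * Z (β - β / 2) + 1) * δ ^ 2 ≤ 32 * (C * Z (β - β / 2) + 1) * th ^ 2 :=
            mul_le_mul_of_nonneg_left hth2 (by positivity)
        _ = (32 * (C * Z (β - β / 2) + 1) * th) * th := by ring
        _ ≤ ((β / 2) ^ C₀ / ((C₀ : ℝ) * E)) * th := mul_le_mul_of_nonneg_right t1 hth.le
        _ = _ := by ring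
    rcases le_or_gt n (2 * r + 4) with hn4 | hn4
    · have c2 : 8 * ((2 * r + 1) * Real.exp (β / 2 * r) * C + 1) * s₀ ^ 2 ≤ (β / 2) ^ C₀ / ((C₀ : ℝ) * n ^ C₀) := by
        refine t3.trans (div_le_div_of_nonneg_left hV.le (by positivity) ?_)
        refine mul_le_mul_of_nonneg_left ?_ x2
        exact pow_le_pow_left₀ (by positivity) (by exact_mod_cast hn4) _
      have h1 := num hp hr hC hβ hβ1 hδ hδ1 hμ la la' ld hn hrn hδs hs1 c1 c2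
      have h2 := caseA1 (β' := β') (P := 4 * C₀) hδ hδ1 hs hs1 hμ hK0 hβ'.le (hββ'.trans hβ1) hn4 hrn
        (x := ‖a n - a' n‖) (by
          refine h1.trans (le_of_eq ?_)
          rw [hK, mul_pow, ← pow_mul, mul_comm C₀ 4]
          ring)
      refine h2.trans ?_
      have : (K * (2 * r + 4) ^ (4 * C₀) * ((s₀⁻¹) ^ (2 * r + 4) + 1) * Real.exp (2 * r + 4)) *
          (μ * δ ^ (r + 1) * Real.exp (-(β' * n))) ≤ (C₀ + 2 * K * E + K * (2 * r + 4) ^ (4 * C₀) *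
          ((s₀⁻¹) ^ (2 * r + 4) + 1) * Real.exp (2 * r + 4)) * (μ * δ ^ (r + 1) * Real.exp (-(β' * n))) :=
        mul_le_mul_of_nonneg_right (by linarith) e0
      linarith
    · have c2 : 8 * ((2 * r + 1) * Real.exp (β / 2 * r) * C + 1) * th ^ 2 ≤ (β / 2) ^ C₀ / ((C₀ : ℝ) * n ^ C₀) := by
        refine le_trans ?_ hrad
        calc 8 * ((2 * r + 1) * Real.exp (β / 2 * r) * C + 1) * th ^ 2 =
              (8 * ((2 * r + 1) * Real.exp (β / 2 * r) * C + 1) * th) * th := by ring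
          _ ≤ ((β / 2) ^ C₀ / ((C₀ : ℝ) * E)) * th := mul_le_mul_of_nonneg_right t2 hth.le
          _ = _ := by ring
      have hδth : δ ≤ th := by
        rw [← h4]
        calc th ^ 4 ≤ th ^ 1 := pow_le_pow_of_le_one hth.le hth1 (by norm_num)
          _ = th := pow_one _
      have h1 := num hp hr hC hβ hβ1 hδ hδ1 hμ la la' ld hn hrn hδth hth1 c1 c2
      have h2 := caseA2 (β' := β') (P := 4 * C₀) hth h4 hth1 hμ hK0 hE.le hexp (by omega : 2 * r + 5 ≤ n) (hEn n)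
        (x := ‖a n - a' n‖) (by
          refine h1.trans (le_of_eq ?_)
          rw [hK, mul_pow, ← pow_mul, mul_comm C₀ 4]
          ring)
      refine h2.trans ?_
      have : (2 * K * E) * (μ * δ ^ (r + 1) * Real.exp (-(β' * n))) ≤ (C₀ + 2 * K * E + K * (2 * r + 4) ^ (4 * C₀) *
          ((s₀⁻¹) ^ (2 * r + 4) + 1) * Real.exp (2 * r + 4)) * (μ * δ ^ (r + 1) * Real.exp (-(β' * n))) :=
        mul_le_mul_of_nonneg_right (by linarith) e0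
      linarith

end

end Vale.Agent.P097.D1G
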