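import Vale.Agent.P097.D1G.Defs

/-! # P097 / D1G : norms of sequences -/

set_option linter.all false

open Filter Set

namespace Vale.Agent.P097.D1G

theorem term_nonneg (b : ℝ) (a : ℤ → ℂ) (k : ℤ) : 0 ≤ ‖a k‖ * Real.exp (b * |(k : ℝ)|) := by positivity

theorem nm_nonneg (b : ℝ) (a : ℤ → ℂ) : 0 ≤ nm b a := tsum_nonneg fun k => term_nonneg b a k

theorem sm_zero (b : ℝ) : Sm b 0 := by
  unfold Sm
  simpa using summable_zero

theorem nm_zero (b : ℝ) : nm b 0 = 0 := by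
  unfold nm
  simp

theorem Sm.of_le {b : ℝ} {a c : ℤ → ℂ} (hc : Sm b c) (h : ∀ k, ‖a k‖ ≤ ‖c k‖) : Sm b a :=
  Summable.of_nonneg_of_le (term_nonneg b a) (fun k => mul_le_mul_of_nonneg_right (h k) (Real.exp_nonneg _)) hc

theorem nm_le_of_le {b : ℝ} {a c : ℤ → ℂ} (hc : Sm b c) (h : ∀ k, ‖a k‖ ≤ ‖c k‖) : nm b a ≤ nm b c :=
  Summable.tsum_le_tsum (fun k => mul_le_mul_of_nonneg_right (h k) (Real.exp_nonneg _)) (hc.of_le h) hc

theorem Sm.add {b : ℝ} {a c : ℤ → ℂ} (ha : Sm b a) (hc : Sm b c) : Sm b (a + c) := by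
  refine Summable.of_nonneg_of_le (term_nonneg b _) (fun k => ?_) (Summable.add ha hc)
  rw [← add_mul]
  exact mul_le_mul_of_nonneg_right (norm_add_le _ _) (Real.exp_nonneg _)

theorem nm_add_le {b : ℝ} {a c : ℤ → ℂ} (ha : Sm b a) (hc : Sm b c) : nm b (a + c) ≤ nm b a + nm b c := by
  unfold nm
  rw [← Summable.tsum_add ha hc]
  refine Summable.tsum_le_tsum (fun k => ?_) (ha.add hc) (Summable.add ha hc)
  rw [← add_mul]
  exact mul_le_mul_of_nonneg_right (norm_add_le _ _) (Real.exp_nonneg _)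

theorem Sm.smul {b : ℝ} {a : ℤ → ℂ} (ha : Sm b a) (t : ℂ) : Sm b (t • a) := by
  have : Summable fun k : ℤ => ‖t‖ * (‖a k‖ * Real.exp (b * |(k : ℝ)|)) := Summable.mul_left _ ha
  refine this.congr fun k => ?_
  simp only [Pi.smul_apply, smul_eq_mul, norm_mul]
  ring

theorem nm_smul (b : ℝ) (a : ℤ → ℂ) (t : ℂ) : nm b (t • a) = ‖t‖ * nm b a := by
  unfold nm
  rw [← tsum_mul_left]
  refine tsum_congr fun k => ?_
  simp only [Pi.smul_apply, smul_eq_mul, norm_mul]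
  ring

theorem Sm.neg {b : ℝ} {a : ℤ → ℂ} (ha : Sm b a) : Sm b (-a) := ha.of_le fun k => by simp

theorem nm_neg (b : ℝ) (a : ℤ → ℂ) : nm b (-a) = nm b a := by
  unfold nm
  simp

theorem Sm.sub {b : ℝ} {a c : ℤ → ℂ} (ha : Sm b a) (hc : Sm b c) : Sm b (a - c) := by
  rw [sub_eq_add_neg]; exact ha.add hc.neg

theorem nm_sub_le {b : ℝ} {a c : ℤ → ℂ} (ha : Sm b a) (hc : Sm b c) : nm b (a - c) ≤ nm b a + nm b c := by
  rw [sub_eq_add_neg, ← nm_neg b c]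
  exact nm_add_le ha hc.neg

theorem eq_zero_of_nm {b : ℝ} {a : ℤ → ℂ} (ha : Sm b a) (h : nm b a = 0) : a = 0 := by
  funext k
  have h1 : ‖a k‖ * Real.exp (b * |(k : ℝ)|) ≤ nm b a := ha.le_tsum k (fun j _ => term_nonneg b a j)
  rw [h] at h1
  have h2 := Real.exp_pos (b * |(k : ℝ)|)
  have h3 : ‖a k‖ ≤ 0 := by
    by_contra hc
    push Not at hc
    have := mul_pos hc h2
    linarith
  simpa using h3

/-! ### geometric sums -/

theorem summable_geo {γ : ℝ} (hγ : 0 < γ) : Summable fun k : ℤ => Real.exp (-(γ * |(k : ℝ)|)) := by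
  have h : Summable fun n : ℕ => Real.exp (-(γ * (n : ℝ))) := by
    have h1 : Real.exp (-γ) < 1 := by rw [Real.exp_lt_one_iff]; linarith
    refine (summable_geometric_of_lt_one (Real.exp_nonneg (-γ)) h1).congr fun n => ?_
    rw [← Real.exp_nat_mul]
    congr 1
    ring
  refine Summable.of_nat_of_neg ?_ ?_
  · refine h.congr fun n => ?_
    simp
  · refine h.congr fun n => ?_
    simp

/-- the geometric sum -/
noncomputable def Z (γ : ℝ) : ℝ := ∑' k : ℤ, Real.exp (-(γ * |(k : ℝ)|))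

theorem Z_nonneg (γ : ℝ) : 0 ≤ Z γ := tsum_nonneg fun k => Real.exp_nonneg _

theorem sm_of_bound {b β C : ℝ} (hb : b < β) {a : ℤ → ℂ} (h : ∀ k, ‖a k‖ ≤ C * Real.exp (-(β * |(k : ℝ)|))) :
    Sm b a ∧ nm b a ≤ C * Z (β - b) := by
  have h1 : ∀ k : ℤ, ‖a k‖ * Real.exp (b * |(k : ℝ)|) ≤ C * Real.exp (-((β - b) * |(k : ℝ)|)) := by
    intro k
    refine (mul_le_mul_of_nonneg_right (h k) (Real.exp_nonneg _)).trans (le_of_eq ?_)
    rw [mul_assoc, ← Real.exp_add]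
    congr 2
    ring
  have h2 : Summable fun k : ℤ => C * Real.exp (-((β - b) * |(k : ℝ)|)) := (summable_geo (sub_pos.2 hb)).mul_left C
  have h3 : Sm b a := Summable.of_nonneg_of_le (term_nonneg b a) h1 h2
  refine ⟨h3, ?_⟩
  unfold nm Z
  rw [← tsum_mul_left]
  exact Summable.tsum_le_tsum h1 h3 h2

/-- finitely supported sequences -/
theorem sm_fin {b D : ℝ} (hb : 0 ≤ b) (r : ℕ) {x : ℤ → ℂ} (hD : ∀ k, ‖x k‖ ≤ D) (h0 : ∀ k : ℤ, (r : ℤ) < |k| → x k = 0) :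
    Sm b x ∧ nm b x ≤ (2 * r + 1) * Real.exp (b * r) * D := by
  have hD0 : 0 ≤ D := (norm_nonneg _).trans (hD 0)
  have hs : ∀ k ∉ Finset.Icc (-(r : ℤ)) r, ‖x k‖ * Real.exp (b * |(k : ℝ)|) = 0 := by
    intro k hk
    rw [Finset.mem_Icc, ← abs_le, not_le] at hk
    rw [h0 k hk, norm_zero, zero_mul]
  have h1 : Sm b x := summable_of_ne_finset_zero hs
  refine ⟨h1, ?_⟩
  unfold nm
  rw [tsum_eq_sum hs]
  have h2 : ∀ k ∈ Finset.Icc (-(r : ℤ)) r, ‖x k‖ * Real.exp (b * |(k : ℝ)|) ≤ D * Real.exp (b * r) := by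
    intro k hk
    rw [Finset.mem_Icc, ← abs_le] at hk
    have h3 : |(k : ℝ)| ≤ r := by exact_mod_cast hk
    exact mul_le_mul (hD k) (Real.exp_le_exp.2 (mul_le_mul_of_nonneg_left h3 hb)) (Real.exp_nonneg _) hD0
  refine (Finset.sum_le_sum h2).trans (le_of_eq ?_)
  rw [Finset.sum_const, Int.card_Icc, nsmul_eq_mul]
  have : ((((r : ℤ) + 1 - -(r : ℤ)).toNat : ℕ) : ℝ) = 2 * r + 1 := by
    have h4 : ((r : ℤ) + 1 - -(r : ℤ)).toNat = 2 * r + 1 := by omega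
    rw [h4]; push_cast; ring
  rw [this]
  ring

/-! ### truncation -/

theorem tr_norm_le (r : ℕ) (a : ℤ → ℂ) (k : ℤ) : ‖tr r a k‖ ≤ ‖a k‖ := by
  unfold tr
  split
  · exact le_rfl
  · simp

theorem Sm.tr {b : ℝ} {a : ℤ → ℂ} (ha : Sm b a) (r : ℕ) : Sm b (tr r a) := ha.of_le (tr_norm_le r a)

theorem nm_tr_le {b : ℝ} {a : ℤ → ℂ} (ha : Sm b a) (r : ℕ) : nm b (tr r a) ≤ nm b a :=
  nm_le_of_le ha (tr_norm_le r a)

theorem tr_sub (r : ℕ) (a c : ℤ → ℂ) : tr r (a - c) = tr r a - tr r c := by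
  funext k
  unfold tr
  simp only [Pi.sub_apply]
  split <;> simp

theorem tl_norm_le (r : ℕ) (a : ℤ → ℂ) (k : ℤ) : ‖(a - tr r a) k‖ ≤ ‖a k‖ := by
  unfold tr
  simp only [Pi.sub_apply]
  split <;> simp

theorem rot_sub (lam : ℂ) (a c : ℤ → ℂ) : rot lam (a - c) = rot lam a - rot lam c := by
  funext k
  unfold rot
  simp only [Pi.sub_apply]
  ring

end Vale.Agent.P097.D1G
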