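import Vale.Agent.P097.D1G.Boot1

/-! # P097 / D1G : start of the bootstrap -/

set_option linter.all false

open Filter Set Metric

namespace Vale.Agent.P097.D1G

/-- graded bound -/
def Lv (r : ℕ) (C β δ μ : ℝ) (x : ℤ → ℂ) : Prop :=
  ∀ k : ℤ, ‖x k‖ ≤ C * μ * δ ^ min k.natAbs r * Real.exp (-(β * |(k : ℝ)|))

theorem abs_natAbs (k : ℤ) : |(k : ℝ)| = ((k.natAbs : ℕ) : ℝ) := by
  rw [Nat.cast_natAbs, Int.cast_abs]

theorem exists_small_exp {B C : ℝ} (hB : 0 < B) (e : ℝ) (he : 0 < e) : ∃ N : ℕ, ∀ n : ℕ, N ≤ n → C * Real.exp (-(B * n)) ≤ e := by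
  have h1 : Tendsto (fun n : ℕ => C * Real.exp (-(B * (n : ℝ)))) atTop (nhds (C * 0)) := by
    refine Tendsto.const_mul _ ?_
    have h2 : Tendsto (fun n : ℕ => B * (n : ℝ)) atTop atTop := tendsto_natCast_atTop_atTop.const_mul_atTop hB
    exact Real.tendsto_exp_neg_atTop_nhds_zero.comp h2
  rw [mul_zero] at h1
  obtain ⟨N, hN⟩ := eventually_atTop.1 (h1.eventually (gt_mem_nhds he))
  exact ⟨N, fun n hn => (hN n hn).le⟩

/-- one halving step -/
theorem halve {B : ℝ} {C₀ q₀ : ℕ} (hB : 0 < B) : ∃ ι : ℝ, 0 < ι ∧ ∀ (δ μ : ℝ) (a a' : ℤ → ℂ)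
    (F : ℕ → (ℤ → ℂ) → ℂ) (L : ℕ → ℂ), 0 < δ → δ ≤ 1 → 0 ≤ μ → Pair B C₀ q₀ δ μ a a' F L → (∀ k, ‖a k‖ ≤ ι) →
    (∀ k, ‖a' k‖ ≤ ι) → ∀ S : ℝ, (∀ k, ‖a k - a' k‖ ≤ S) → ∀ k, ‖a k - a' k‖ ≤ max (μ * δ ^ 2) (S / 2) := by
  set b : ℝ := min 1 (B / 2) with hb
  have hb0 : 0 < b := by rw [hb]; positivity
  have hb1 : b ≤ 1 := min_le_left _ _
  have hbB : b < B := (min_le_right _ _).trans_lt (by linarith)
  obtain ⟨N, hN⟩ := exists_small_exp (C := C₀) hB (1 / 2) (by norm_num)
  set K : ℝ := C₀ * Z (B - b) + 1 with hK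
  have hZ := Z_nonneg (B - b)
  have hK0 : 0 < K := by rw [hK]; positivity
  -- constants
  set R₁ : ℝ := b ^ C₀ / (((C₀ : ℝ) + 1) * ((N : ℝ) + 1) ^ C₀) with hR₁
  have hR₁0 : 0 < R₁ := by rw [hR₁]; positivity
  set P : ℝ := ((C₀ : ℝ) + 1) * ((N : ℝ) + 1) ^ C₀ with hP
  have hP0 : 0 < P := by rw [hP]; positivity
  set Q : ℝ := P * (64 * (P / b ^ C₀) / R₁ ^ 2) * (3 * K ^ 2) with hQ
  have hQ0 : 0 < Q := by rw [hQ]; positivity
  refine ⟨min (R₁ / (16 * K)) (1 / (2 * Q)), by positivity, ?_⟩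
  intro δ μ a a' F L hδ hδ1 hμ hp ha ha' S hS
  have hS0 : 0 ≤ S := (norm_nonneg _).trans (hS 0)
  have C1 := hp.C1
  have hnat : ∀ n : ℕ, ‖a n - a' n‖ ≤ max (μ * δ ^ 2) (S / 2) := by
    intro n
    rcases lt_or_ge n q₀ with hn | hn
    · refine le_max_of_le_left ?_
      rcases Nat.lt_or_ge n 2 with h2 | h2
      · rw [hp.low n (by rw [Nat.abs_cast]; omega), hp.low' n (by rw [Nat.abs_cast]; omega), sub_zero, norm_zero]
        positivity
      · refine (hp.grd n hn).trans (mul_le_mul_of_nonneg_left ?_ hμ)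
        exact pow_le_pow_of_le_one hδ.le hδ1 h2
    · refine le_max_of_le_right ?_
      rcases le_or_gt N n with hNn | hNn
      · have h1 := hp.std S hS n
        have h2 := hN n hNn
        have h3 : |((n : ℤ) : ℝ)| = n := by simp
        rw [h3] at h1
        nlinarith
      · -- finitely many `n`
        have hn1 := hp.n1 hn
        have hF := hp.hF b hb0 hb1 n hn
        set R : ℝ := b ^ C₀ / ((C₀ : ℝ) * n ^ C₀) with hR
        set M : ℝ := (C₀ : ℝ) * n ^ C₀ / b ^ C₀ with hM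
        have hn1' : (1:ℝ) ≤ n := by exact_mod_cast hn1
        have hC1' : (1:ℝ) ≤ C₀ := by exact_mod_cast C1
        have hnP : (C₀ : ℝ) * n ^ C₀ ≤ P := by
          rw [hP]
          have : (n:ℝ) ≤ N + 1 := by
            have : (n:ℝ) < N := by exact_mod_cast hNn
            linarith
          have h4 : (n:ℝ) ^ C₀ ≤ ((N:ℝ) + 1) ^ C₀ := pow_le_pow_left₀ (by positivity) this _
          have h5 : (0:ℝ) ≤ (n:ℝ) ^ C₀ := by positivity
          nlinarith
        have hn0 : 0 < (C₀ : ℝ) * n ^ C₀ := by positivity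
        have hRR : R₁ ≤ R := by
          rw [hR₁, hR]
          exact div_le_div_of_nonneg_left (by positivity) hn0 (by rw [hP] at hnP; exact hnP)
        have hMM : M ≤ P / b ^ C₀ := by
          rw [hM]
          exact div_le_div_of_nonneg_right hnP (by positivity)
        -- norms
        have hna := sm_of_bound hbB (hp.st _ ha)
        have hna' := sm_of_bound hbB (hp.st' _ ha')
        have hnd := sm_of_bound hbB (a := a - a') (hp.std S hS)
        set ι := min (R₁ / (16 * K)) (1 / (2 * Q)) with hι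
        have hι0 : 0 < ι := by rw [hι]; positivity
        have hKι : K * ι ≤ R₁ / 16 := by
          have : ι ≤ R₁ / (16 * K) := min_le_left _ _
          calc K * ι ≤ K * (R₁ / (16 * K)) := mul_le_mul_of_nonneg_left this hK0.le
            _ = R₁ / 16 := by field_simp
        have hCZ : C₀ * Z (B - b) ≤ K := by rw [hK]; linarith
        have na : nm b a ≤ K * ι := by
          refine hna.2.trans ?_
          calc C₀ * ι * Z (B - b) = (C₀ * Z (B - b)) * ι := by ring
            _ ≤ K * ι := mul_le_mul_of_nonneg_right hCZ hι0.le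
        have na' : nm b a' ≤ K * ι := by
          refine hna'.2.trans ?_
          calc C₀ * ι * Z (B - b) = (C₀ * Z (B - b)) * ι := by ring
            _ ≤ K * ι := mul_le_mul_of_nonneg_right hCZ hι0.le
        have nd : nm b (a - a') ≤ K * S := by
          refine hnd.2.trans ?_
          calc C₀ * S * Z (B - b) = (C₀ * Z (B - b)) * S := by ring
            _ ≤ K * S := mul_le_mul_of_nonneg_right hCZ hS0
        have nd2 : nm b (a - a') ≤ 2 * (K * ι) := by
          have := nm_sub_le hna.1 hna'.1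
          linarith
        have h6 := P3 hF hn1 hna'.1 (hna.1.sub hna'.1) (by linarith) (by linarith)
        have e1 : a' + (a - a') = a := by abel
        rw [e1, hp.za n hn, hp.za' n hn, sub_zero, zero_sub, norm_neg, norm_mul] at h6
        have hMR : 64 * M / R ^ 2 ≤ 64 * (P / b ^ C₀) / R₁ ^ 2 := by
          refine div_le_div₀ (by positivity) (by linarith) (by positivity) ?_
          exact pow_le_pow_left₀ hR₁0.le hRR 2
        have hL := hp.hL n hn
        have nnd := nm_nonneg b (a - a')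
        have nna' := nm_nonneg b a'
        have h7 : ‖L n‖ * ‖(a - a') n‖ ≤ (64 * (P / b ^ C₀) / R₁ ^ 2) * (K * S) * (3 * (K * ι)) := by
          refine h6.trans ?_
          refine mul_le_mul (mul_le_mul hMR nd nnd (by positivity)) (by linarith) (by positivity) (by positivity)
        have h8 : ‖a n - a' n‖ ≤ P * (‖L n‖ * ‖(a - a') n‖) := by
          have h9 : 1 ≤ P * ‖L n‖ := hL.trans (mul_le_mul_of_nonneg_right hnP (norm_nonneg _))
          calc ‖a n - a' n‖ = 1 * ‖(a - a') n‖ := by rw [one_mul]; rfl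
            _ ≤ (P * ‖L n‖) * ‖(a - a') n‖ := mul_le_mul_of_nonneg_right h9 (norm_nonneg _)
            _ = _ := by ring
        have h10 : ‖a n - a' n‖ ≤ Q * ι * S := by
          refine h8.trans ?_
          calc P * (‖L n‖ * ‖(a - a') n‖) ≤ P * ((64 * (P / b ^ C₀) / R₁ ^ 2) * (K * S) * (3 * (K * ι))) :=
                mul_le_mul_of_nonneg_left h7 hP0.le
            _ = Q * ι * S := by rw [hQ]; ring
        have h11 : Q * ι ≤ 1 / 2 := by
          have : ι ≤ 1 / (2 * Q) := min_le_right _ _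
          calc Q * ι ≤ Q * (1 / (2 * Q)) := mul_le_mul_of_nonneg_left this hQ0.le
            _ = 1 / 2 := by field_simp
        have := mul_le_mul_of_nonneg_right h11 hS0
        linarith
  intro k
  rw [hp.sym k]
  exact hnat _

/-- the start: level 2 -/
theorem start {B : ℝ} {C₀ q₀ : ℕ} (hB : 0 < B) : ∃ ι : ℝ, 0 < ι ∧ ∀ (δ μ : ℝ) (a a' : ℤ → ℂ)
    (F : ℕ → (ℤ → ℂ) → ℂ) (L : ℕ → ℂ), 0 < δ → δ ≤ 1 → 0 ≤ μ → Pair B C₀ q₀ δ μ a a' F L → (∀ k, ‖a k‖ ≤ ι) →
    (∀ k, ‖a' k‖ ≤ ι) → ∀ k : ℤ, ‖a k - a' k‖ ≤ C₀ * (μ * δ ^ 2) * Real.exp (-(B * |(k : ℝ)|)) := by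
  obtain ⟨ι, hι, h⟩ := halve (C₀ := C₀) (q₀ := q₀) hB
  refine ⟨ι, hι, fun δ μ a a' F L hδ hδ1 hμ hp ha ha' => ?_⟩
  have h1 : ∀ j : ℕ, ∀ k, ‖a k - a' k‖ ≤ max (μ * δ ^ 2) (2 * ι / 2 ^ j) := by
    intro j
    induction j with
    | zero =>
      intro k
      refine le_max_of_le_right ?_
      rw [pow_zero, div_one]
      calc _ ≤ ‖a k‖ + ‖a' k‖ := norm_sub_le _ _
        _ ≤ 2 * ι := by linarith [ha k, ha' k]
    | succ j ih =>
      intro k
      refine (h δ μ a a' F L hδ hδ1 hμ hp ha ha' _ ih k).trans ?_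
      refine max_le (le_max_left _ _) ?_
      have h0 : 0 ≤ μ * δ ^ 2 := by positivity
      rcases le_total (μ * δ ^ 2) (2 * ι / 2 ^ j) with hc | hc
      · rw [max_eq_right hc]
        refine le_max_of_le_right (le_of_eq ?_)
        rw [pow_succ]
        field_simp
      · rw [max_eq_left hc]
        exact le_max_of_le_left (by linarith)
  have h2 : ∀ k, ‖a k - a' k‖ ≤ μ * δ ^ 2 := by
    intro k
    have h3 : Tendsto (fun j : ℕ => max (μ * δ ^ 2) (2 * ι / 2 ^ j)) atTop (nhds (max (μ * δ ^ 2) 0)) := by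
      refine Tendsto.max tendsto_const_nhds ?_
      have := (tendsto_pow_atTop_nhds_zero_of_lt_one (r := (1/2:ℝ)) (by norm_num) (by norm_num)).const_mul (2 * ι)
      rw [mul_zero] at this
      refine this.congr fun j => ?_
      rw [one_div, inv_pow]
      rfl
    have h4 : max (μ * δ ^ 2) 0 = μ * δ ^ 2 := max_eq_left (by positivity)
    rw [h4] at h3
    exact ge_of_tendsto' h3 fun j => h1 j k
  intro k
  exact hp.std _ h2 k

end Vale.Agent.P097.D1G
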