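import Vale.Agent.P097.D1G.Start

/-! # P097 / D1G : the step of the bootstrap, one index -/

set_option linter.all false

open Filter Set Metric

namespace Vale.Agent.P097.D1G

section lv
variable {r : ℕ} {C β δ μ : ℝ} {x : ℤ → ℂ}

theorem Lv.two (h : Lv r C β δ μ x) (h0 : ∀ k : ℤ, |k| ≤ 1 → x k = 0) (hr : 2 ≤ r) (hδ : 0 < δ) (hδ1 : δ ≤ 1)
    (hμ : 0 ≤ μ) (hC : 0 ≤ C) (k : ℤ) : ‖x k‖ ≤ C * μ * δ ^ 2 * Real.exp (-(β * |(k : ℝ)|)) := by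
  rcases le_or_gt |k| 1 with hk | hk
  · rw [h0 k hk, norm_zero]; positivity
  · refine (h k).trans ?_
    have hna := Int.natCast_natAbs k
    have h1 : 2 ≤ min k.natAbs r := le_min (by omega) hr
    have := pow_le_pow_of_le_one hδ.le hδ1 h1
    gcongr

theorem Lv.nm2 (h : Lv r C β δ μ x) (h0 : ∀ k : ℤ, |k| ≤ 1 → x k = 0) (hr : 2 ≤ r) (hδ : 0 < δ) (hδ1 : δ ≤ 1)
    (hμ : 0 ≤ μ) (hC : 0 ≤ C) {b : ℝ} (hb : b < β) : Sm b x ∧ nm b x ≤ C * μ * δ ^ 2 * Z (β - b) :=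
  sm_of_bound hb (h.two h0 hr hδ hδ1 hμ hC)

theorem Lv.nmt (h : Lv r C β δ μ x) (hδ : 0 < δ) (hμ : 0 ≤ μ) (hC : 0 ≤ C) {b : ℝ} (hb : b < β) :
    Sm b (x - tr r x) ∧ nm b (x - tr r x) ≤ C * μ * δ ^ r * Z (β - b) := by
  refine sm_of_bound hb fun k => ?_
  unfold tr
  simp only [Pi.sub_apply]
  split
  · rw [sub_self, norm_zero]; positivity
  · rename_i hk
    rw [sub_zero]
    refine (h k).trans (le_of_eq ?_)
    have hna := Int.natCast_natAbs k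
    rw [min_eq_right (by omega)]

theorem Lv.nmr (h : Lv r C β δ μ x) (h0 : ∀ k : ℤ, |k| ≤ 1 → x k = 0) (hδ : 0 < δ) (hμ : 0 ≤ μ) (hC : 0 ≤ C) (hβ : 0 ≤ β)
    {b : ℝ} (hb : 0 ≤ b) {s : ℝ} (hs : δ ≤ s) (hs1 : s ≤ 1) :
    Sm b (rot ((s / δ : ℝ) : ℂ) (tr r x)) ∧
      nm b (rot ((s / δ : ℝ) : ℂ) (tr r x)) ≤ (2 * r + 1) * Real.exp (b * r) * (C * μ * s ^ 2) := by
  have hs0 : 0 < s := hδ.trans_le hs
  refine rot_fin hb (fun k hk => ?_) (by positivity)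
  rcases le_or_gt |k| 1 with hk1 | hk1
  · rw [h0 k hk1, mul_zero, norm_zero]; positivity
  · have h1 := h k
    have hna := Int.natCast_natAbs k
    rw [min_eq_left (by omega)] at h1
    have h2 : Real.exp (-(β * |(k : ℝ)|)) ≤ 1 := by
      rw [Real.exp_le_one_iff]
      have := abs_nonneg (k : ℝ)
      nlinarith
    have h3 : ‖x k‖ ≤ C * μ * δ ^ k.natAbs := by
      refine h1.trans ?_
      calc _ ≤ C * μ * δ ^ k.natAbs * 1 := mul_le_mul_of_nonneg_left h2 (by positivity)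
        _ = _ := mul_one _
    rw [norm_mul, norm_zpow, Complex.norm_real, Real.norm_eq_abs, abs_of_pos (by positivity)]
    have h4 : (s / δ) ^ k * δ ^ k.natAbs ≤ s ^ 2 := by
      rcases Int.natAbs_eq k with hk2 | hk2
      · have e1 : (s / δ) ^ k = (s / δ) ^ k.natAbs := by
          conv_lhs => rw [hk2]
          exact zpow_natCast _ _
        rw [e1, ← mul_pow, div_mul_cancel₀ _ hδ.ne']
        exact pow_le_pow_of_le_one hs0.le hs1 (by omega)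
      · have e1 : (s / δ) ^ k = (δ / s) ^ k.natAbs := by
          conv_lhs => rw [hk2]
          rw [zpow_neg, zpow_natCast, ← inv_pow, inv_div]
        rw [e1]
        have h5 : (δ / s) ^ k.natAbs ≤ 1 := pow_le_one₀ (by positivity) (by rw [div_le_one hs0]; exact hs)
        have h6 : δ ^ k.natAbs ≤ s ^ k.natAbs := pow_le_pow_left₀ hδ.le hs _
        have h7 : s ^ k.natAbs ≤ s ^ 2 := pow_le_pow_of_le_one hs0.le hs1 (by omega)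
        calc _ ≤ 1 * δ ^ k.natAbs := mul_le_mul_of_nonneg_right h5 (by positivity)
          _ ≤ s ^ 2 := by rw [one_mul]; exact h6.trans h7
    calc (s / δ) ^ k * ‖x k‖ ≤ (s / δ) ^ k * (C * μ * δ ^ k.natAbs) := mul_le_mul_of_nonneg_left h3 (by positivity)
      _ = C * μ * ((s / δ) ^ k * δ ^ k.natAbs) := by ring
      _ ≤ C * μ * s ^ 2 := mul_le_mul_of_nonneg_left h4 (by positivity)

end lv

theorem fin_alg {W V K₁ K₂ μ D E X Y G : ℝ} (hW : 1 ≤ W) (hV : 0 < V) (hV1 : V ≤ 1) (hK₂ : 1 ≤ K₂) (hμ : 0 ≤ μ)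
    (hD : 0 ≤ D) (hE : 0 ≤ E) (q5 : X ≤ W * Y) (q4 : Y ≤ D * (G * (K₂ * μ)) + 64 * W ^ 3 / V ^ 3 * (4 * K₁ ^ 2 * μ * E))
    (q6 : G ≤ 256 * W ^ 3 / V ^ 3) : X ≤ W ^ 4 * (256 * (K₂ + K₁ ^ 2) / V ^ 3) * μ * (D + E) := by
  have hW0 : 0 < W := by linarith
  have h1 : D * (G * (K₂ * μ)) ≤ D * ((256 * W ^ 3 / V ^ 3) * (K₂ * μ)) :=
    mul_le_mul_of_nonneg_left (mul_le_mul_of_nonneg_right q6 (by positivity)) hD
  have h2 : X ≤ W * (D * ((256 * W ^ 3 / V ^ 3) * (K₂ * μ)) + 64 * W ^ 3 / V ^ 3 * (4 * K₁ ^ 2 * μ * E)) :=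
    q5.trans (mul_le_mul_of_nonneg_left (by linarith) hW0.le)
  have h3 : W * (D * ((256 * W ^ 3 / V ^ 3) * (K₂ * μ)) + 64 * W ^ 3 / V ^ 3 * (4 * K₁ ^ 2 * μ * E)) =
      W ^ 4 * (256 / V ^ 3) * μ * (K₂ * D + K₁ ^ 2 * E) := by ring
  have h4 : K₂ * D + K₁ ^ 2 * E ≤ (K₂ + K₁ ^ 2) * (D + E) := by
    have e1 : 0 ≤ K₁ ^ 2 * D := by positivity
    have e2 : 0 ≤ K₂ * E := by positivity
    nlinarith
  calc X ≤ W ^ 4 * (256 / V ^ 3) * μ * (K₂ * D + K₁ ^ 2 * E) := h2.trans (le_of_eq h3)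
    _ ≤ W ^ 4 * (256 / V ^ 3) * μ * ((K₂ + K₁ ^ 2) * (D + E)) := mul_le_mul_of_nonneg_left h4 (by positivity)
    _ = _ := by ring

theorem alg6 {W V : ℝ} (hW : 1 ≤ W) (hV : 0 < V) (hV1 : V ≤ 1) : 4 * (W / V) / (V / W) ≤ 256 * W ^ 3 / V ^ 3 := by
  have hW0 : 0 < W := by linarith
  have e1 : 4 * (W / V) / (V / W) = 4 * W ^ 2 / V ^ 2 := by field_simp
  rw [e1]
  refine div_le_div₀ (by positivity) ?_ (by positivity) ?_
  · nlinarith [pow_pos hW0 2]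
  · nlinarith [pow_pos hV 2]

theorem alg7 {W V : ℝ} (hW0 : 0 < W) (hV : 0 < V) : 64 * (W / V) / (V / W) ^ 2 = 64 * W ^ 3 / V ^ 3 := by
  field_simp

/-- one index -/
theorem num {B : ℝ} {C₀ q₀ : ℕ} {δ μ : ℝ} {a a' : ℤ → ℂ} {F : ℕ → (ℤ → ℂ) → ℂ} {L : ℕ → ℂ}
    (hp : Pair B C₀ q₀ δ μ a a' F L) {r : ℕ} {C β : ℝ} (hr : 2 ≤ r) (hC : 0 ≤ C) (hβ : 0 < β) (hβ1 : β ≤ 1)
    (hδ : 0 < δ) (hδ1 : δ ≤ 1) (hμ : 0 ≤ μ) (la : Lv r C β δ 1 a) (la' : Lv r C β δ 1 a') (ld : Lv r C β δ μ (a - a'))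
    {n : ℕ} (hn : q₀ ≤ n) (hrn : r < n) {s : ℝ} (hs : δ ≤ s) (hs1 : s ≤ 1)
    (c1 : 32 * (C * Z (β - β / 2) + 1) * δ ^ 2 ≤ (β / 2) ^ C₀ / ((C₀ : ℝ) * n ^ C₀))
    (c2 : 8 * ((2 * r + 1) * Real.exp (β / 2 * r) * C + 1) * s ^ 2 ≤ (β / 2) ^ C₀ / ((C₀ : ℝ) * n ^ C₀)) :
    ‖a n - a' n‖ ≤ ((C₀ : ℝ) * n ^ C₀) ^ 4 * (256 * (((2 * r + 1) * Real.exp (β / 2 * r) * C + 1) +
      (C * Z (β - β / 2) + 1) ^ 2) / ((β / 2) ^ C₀) ^ 3) * μ * ((δ / s) ^ n + δ ^ (r + 2)) := by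
  set b : ℝ := β / 2 with hb
  have hb0 : 0 < b := by rw [hb]; positivity
  have hb1 : b ≤ 1 := by rw [hb]; linarith
  have hbβ : b < β := by rw [hb]; linarith
  set K₁ : ℝ := C * Z (β - b) + 1 with hK₁
  set K₂ : ℝ := (2 * r + 1) * Real.exp (b * r) * C + 1 with hK₂
  have hZ := Z_nonneg (β - b)
  have hK₁0 : 1 ≤ K₁ := by rw [hK₁]; nlinarith
  have hK₂0 : 1 ≤ K₂ := by
    rw [hK₂]
    have : 0 ≤ (2 * (r:ℝ) + 1) * Real.exp (b * r) * C := by positivity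
    linarith
  have hn1 := hp.n1 hn
  have hC1 := hp.C1
  have hF := hp.hF b hb0 hb1 n hn
  set W : ℝ := (C₀ : ℝ) * n ^ C₀ with hW
  have hW1 : 1 ≤ W := by
    rw [hW]
    have h1 : (1:ℝ) ≤ C₀ := by exact_mod_cast hC1
    have h2 : (1:ℝ) ≤ (n:ℝ) ^ C₀ := one_le_pow₀ (by exact_mod_cast hn1)
    nlinarith
  have hW0 : 0 < W := by linarith
  set V : ℝ := b ^ C₀ with hV
  have hV0 : 0 < V := by rw [hV]; positivity
  have hV1 : V ≤ 1 := pow_le_one₀ hb0.le hb1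
  set R : ℝ := V / W with hR
  set M : ℝ := W / V with hM
  have hR0 : 0 < R := by rw [hR]; positivity
  have hs0 : 0 < s := hδ.trans_le hs
  have hδp := pow_pos hδ 2
  have lowd : ∀ k : ℤ, |k| ≤ 1 → (a - a') k = 0 := fun k hk => by
    simp only [Pi.sub_apply]; rw [hp.low k hk, hp.low' k hk, sub_zero]
  -- norms
  obtain ⟨sa, na⟩ := la.nm2 hp.low hr hδ hδ1 zero_le_one hC hbβ
  obtain ⟨sa', na'⟩ := la'.nm2 hp.low' hr hδ hδ1 zero_le_one hC hbβ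
  obtain ⟨sd, nd⟩ := ld.nm2 lowd hr hδ hδ1 hμ hC hbβ
  obtain ⟨sta, nta⟩ := la.nmt hδ zero_le_one hC hbβ
  obtain ⟨std, ntd⟩ := ld.nmt hδ hμ hC hbβ
  obtain ⟨sr', nr'⟩ := la'.nmr hp.low' hδ zero_le_one hC hβ.le hb0.le hs hs1
  obtain ⟨sr, nr⟩ := la.nmr hp.low hδ zero_le_one hC hβ.le hb0.le hs hs1
  obtain ⟨srd, nrd⟩ := ld.nmr lowd hδ hμ hC hβ.le hb0.le hs hs1
  have hCZ : C * Z (β - b) ≤ K₁ := by rw [hK₁]; linarith
  have na2 : nm b a ≤ K₁ * δ ^ 2 := by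
    refine na.trans ?_
    calc C * 1 * δ ^ 2 * Z (β - b) = (C * Z (β - b)) * δ ^ 2 := by ring
      _ ≤ _ := mul_le_mul_of_nonneg_right hCZ hδp.le
  have na2' : nm b a' ≤ K₁ * δ ^ 2 := by
    refine na'.trans ?_
    calc C * 1 * δ ^ 2 * Z (β - b) = (C * Z (β - b)) * δ ^ 2 := by ring
      _ ≤ _ := mul_le_mul_of_nonneg_right hCZ hδp.le
  have nd2 : nm b (a - a') ≤ K₁ * (μ * δ ^ 2) := by
    refine nd.trans ?_
    calc C * μ * δ ^ 2 * Z (β - b) = (C * Z (β - b)) * (μ * δ ^ 2) := by ring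
      _ ≤ _ := mul_le_mul_of_nonneg_right hCZ (by positivity)
  have nta2 : nm b (a - tr r a) ≤ K₁ * δ ^ r := by
    refine nta.trans ?_
    calc C * 1 * δ ^ r * Z (β - b) = (C * Z (β - b)) * δ ^ r := by ring
      _ ≤ _ := mul_le_mul_of_nonneg_right hCZ (by positivity)
  have ntd2 : nm b ((a - a') - tr r (a - a')) ≤ K₁ * (μ * δ ^ r) := by
    refine ntd.trans ?_
    calc C * μ * δ ^ r * Z (β - b) = (C * Z (β - b)) * (μ * δ ^ r) := by ring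
      _ ≤ _ := mul_le_mul_of_nonneg_right hCZ (by positivity)
  have hE : (2 * (r:ℝ) + 1) * Real.exp (b * r) * C ≤ K₂ := by rw [hK₂]; linarith
  have nr2' : nm b (rot ((s / δ : ℝ) : ℂ) (tr r a')) ≤ K₂ * s ^ 2 := by
    refine nr'.trans ?_
    calc (2 * (r:ℝ) + 1) * Real.exp (b * r) * (C * 1 * s ^ 2) = ((2 * (r:ℝ) + 1) * Real.exp (b * r) * C) * s ^ 2 := by ring
      _ ≤ _ := mul_le_mul_of_nonneg_right hE (by positivity)
  have nr2 : nm b (rot ((s / δ : ℝ) : ℂ) (tr r a)) ≤ K₂ * s ^ 2 := by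
    refine nr.trans ?_
    calc (2 * (r:ℝ) + 1) * Real.exp (b * r) * (C * 1 * s ^ 2) = ((2 * (r:ℝ) + 1) * Real.exp (b * r) * C) * s ^ 2 := by ring
      _ ≤ _ := mul_le_mul_of_nonneg_right hE (by positivity)
  have nrd2 : nm b (rot ((s / δ : ℝ) : ℂ) (tr r (a - a'))) ≤ K₂ * (μ * s ^ 2) := by
    refine nrd.trans ?_
    calc (2 * (r:ℝ) + 1) * Real.exp (b * r) * (C * μ * s ^ 2) = ((2 * (r:ℝ) + 1) * Real.exp (b * r) * C) * (μ * s ^ 2) := by ring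
      _ ≤ _ := mul_le_mul_of_nonneg_right hE (by positivity)
  have nrd3 : nm b (rot ((s / δ : ℝ) : ℂ) (tr r (a - a'))) ≤ 2 * (K₂ * s ^ 2) := by
    rw [tr_sub, rot_sub]
    have := nm_sub_le sr sr'
    linarith
  have hc := core hF hn1 sa sa' (hp.za n hn) (hp.za' n hn) hrn (by linarith) (by linarith)
  have hrot := rotF hF hb0.le sa sa' (by linarith) (by linarith) (r := r) (lam := s / δ) (by positivity) sr' srd
    (by linarith) (by linarith)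
  have hlam : (s / δ)⁻¹ = δ / s := inv_div s δ
  rw [hlam] at hrot
  have nd3 : nm b ((a - a') - tr r (a - a')) ≤ 2 * (K₁ * δ ^ 2) := by
    refine (nm_le_of_le sd (tl_norm_le r _)).trans ?_
    have := nm_sub_le sa sa'
    linarith
  -- assemble
  have hM0 : 0 < M := by rw [hM]; positivity
  have q1 : ‖F n (tr r a) - F n (tr r a')‖ ≤ (δ / s) ^ n * (4 * M / R * (K₂ * μ)) := by
    refine hrot.trans (mul_le_mul_of_nonneg_left (mul_le_mul_of_nonneg_left ?_ (by positivity)) (by positivity))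
    refine nrd2.trans (mul_le_mul_of_nonneg_left ?_ (by linarith))
    calc μ * s ^ 2 ≤ μ * 1 := mul_le_mul_of_nonneg_left (pow_le_one₀ hs0.le hs1) hμ
      _ = μ := mul_one _
  have q2 : nm b (tr r (a - a')) * nm b (a - tr r a) ≤ (K₁ * (μ * δ ^ 2)) * (K₁ * δ ^ r) :=
    mul_le_mul ((nm_tr_le sd r).trans nd2) nta2 (nm_nonneg _ _) (by positivity)
  have q3 : nm b ((a - a') - tr r (a - a')) * (nm b a' + nm b ((a - a') - tr r (a - a'))) ≤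
      (K₁ * (μ * δ ^ r)) * (3 * (K₁ * δ ^ 2)) :=
    mul_le_mul ntd2 (by linarith) (add_nonneg (nm_nonneg _ _) (nm_nonneg _ _)) (by positivity)
  have q4 : ‖L n‖ * ‖a n - a' n‖ ≤ (δ / s) ^ n * (4 * M / R * (K₂ * μ)) + 64 * M / R ^ 2 * (4 * K₁ ^ 2 * μ * δ ^ (r + 2)) := by
    refine hc.trans (add_le_add q1 (mul_le_mul_of_nonneg_left ?_ (by positivity)))
    calc _ ≤ (K₁ * (μ * δ ^ 2)) * (K₁ * δ ^ r) + (K₁ * (μ * δ ^ r)) * (3 * (K₁ * δ ^ 2)) := add_le_add q2 q3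
      _ = _ := by ring
  have q5 : ‖a n - a' n‖ ≤ W * (‖L n‖ * ‖a n - a' n‖) := by
    have hL := hp.hL n hn
    calc ‖a n - a' n‖ = 1 * ‖a n - a' n‖ := (one_mul _).symm
      _ ≤ (W * ‖L n‖) * ‖a n - a' n‖ := mul_le_mul_of_nonneg_right hL (norm_nonneg _)
      _ = _ := by ring
  have q6 : 4 * M / R ≤ 256 * W ^ 3 / V ^ 3 := alg6 hW1 hV0 hV1
  have q7 : 64 * M / R ^ 2 = 64 * W ^ 3 / V ^ 3 := alg7 hW0 hV0
  rw [q7] at q4
  exact fin_alg hW1 hV0 hV1 hK₂0 hμ (by positivity) (by positivity) q5 q4 q6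

end Vale.Agent.P097.D1G
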